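import Vale.Agent.P150.Planted.Conc
import Vale.Agent.P146.HighTemp

/-!
Up to the critical temperature the partition function is annealed up to `exp (O (√n r))` with high
probability.
-/

namespace Vale.Agent.P150.Planted

open Finset Real MeasureTheory
open Vale.Agent.P150 Vale.Agent.P150.Slow Vale.Agent.P146

variable {n : ℕ}

/-- The annealed partition function. -/
noncomputable def annealed (n : ℕ) (β : ℝ) : ℝ := 2 ^ n * Real.exp (β ^ 2 * ((n : ℝ) - 1) / 4)

lemma lip_lg_cpl {b : ℝ} (hb : |b| ≤ 1) : Lip2 (lg (cpl n b)) √n := by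
  refine ⟨Real.sqrt_nonneg _, fun g h => ?_⟩
  have hlip := lip_lg (cpl n b) (L := fun _ => 1 / √(n : ℝ)) (fun _ => by positivity) fun e x => by
    unfold cpl
    split_ifs
    · rw [abs_mul, abs_X, mul_one, abs_div, abs_of_nonneg (Real.sqrt_nonneg (n : ℝ))]
      exact div_le_div_of_nonneg_right hb (Real.sqrt_nonneg _)
    · simp
  refine (hlip.2 g h).trans ?_
  rw [← mul_sum]
  have h1 := Real.sum_mul_le_sqrt_mul_sqrt univ (fun _ : Fin n × Fin n => (1 : ℝ))
    fun e => |g e - h e|
  simp only [one_mul, one_pow, sum_const, card_univ, Fintype.card_prod, Fintype.card_fin,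
    nsmul_eq_mul, mul_one, sq_abs] at h1
  push_cast at h1
  rw [Real.sqrt_mul_self (Nat.cast_nonneg n)] at h1
  refine (mul_le_mul_of_nonneg_left h1 (by positivity)).trans (le_of_eq ?_)
  rw [← mul_assoc, one_div_mul_eq_div, Real.div_sqrt]

/-- Second moment method at a subcritical temperature. -/
lemma half_annealed_prob (hn : 0 < n) {b C : ℝ} (hb : b ^ 2 < 1) (hC : (√(1 - b ^ 2))⁻¹ ≤ C) :
    1 / (4 * C) ≤ (stdPi (Fin n × Fin n)).real
      {g | Real.log (annealed n b / 2) ≤ lg (cpl n b) g} := by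
  set μ := stdPi (Fin n × Fin n)
  set m := annealed n b with hm
  have hm0 : 0 < m := by rw [hm, annealed]; positivity
  have hC0 : 0 < C := lt_of_lt_of_le (inv_pos.2 (Real.sqrt_pos.2 (by linarith))) hC
  set A := {g | Real.log (m / 2) ≤ lg (cpl n b) g} with hA
  have hAm : MeasurableSet A := measurableSet_le measurable_const (continuous_lg _).measurable
  set l := (2 * C * m)⁻¹ with hl
  have hl0 : 0 < l := by positivity
  have hpt : ∀ g, part n b g ≤
      m / 2 + (l / 2 * part n b g ^ 2 + A.indicator (fun _ => 1 / (2 * l)) g) := by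
    intro g
    have hz0 : 0 < part n b g := part_pos _ g
    have hi : 0 ≤ A.indicator (fun _ => 1 / (2 * l)) g :=
      Set.indicator_nonneg (fun _ _ => by positivity) _
    have hq : 0 ≤ l / 2 * part n b g ^ 2 := by positivity
    rcases le_or_gt (part n b g) (m / 2) with h | h
    · linarith
    · have hg : g ∈ A := Real.log_le_log (by positivity) h.le
      rw [Set.indicator_of_mem hg]
      have h5 : 0 ≤ (l * part n b g - 1) ^ 2 / (2 * l) := by positivity
      have e : (l * part n b g - 1) ^ 2 / (2 * l) =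
          l / 2 * part n b g ^ 2 + 1 / (2 * l) - part n b g := by field_simp; ring
      linarith
  obtain ⟨i1, e1⟩ := part_mean hn b
  obtain ⟨i2, e2⟩ := part_sq hn hb
  have i3 : Integrable (A.indicator fun _ => 1 / (2 * l)) μ :=
    (integrable_const _).indicator hAm
  have i4 : Integrable (fun g => l / 2 * part n b g ^ 2 + A.indicator (fun _ => 1 / (2 * l)) g) μ :=
    (i2.const_mul _).add i3
  have h := integral_mono i1 ((integrable_const (m / 2)).add i4) hpt
  simp only [Pi.add_apply] at h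
  rw [integral_add (integrable_const _) i4, integral_add (i2.const_mul _) i3, integral_const_mul,
    integral_indicator_const _ hAm, integral_const, probReal_univ, one_smul, e1] at h
  have k1 : l / 2 * ∫ g, part n b g ^ 2 ∂μ ≤ l / 2 * (C * m ^ 2) := by
    refine mul_le_mul_of_nonneg_left (e2.trans ?_) (by positivity)
    rw [hm, annealed]
    exact mul_le_mul_of_nonneg_right hC (sq_nonneg _)
  have k3 : l / 2 * (C * m ^ 2) = m / 4 := by simp only [hl]; field_simp; ring
  have k5 : μ.real A • (1 / (2 * l)) = μ.real A * (4 * C) * (m / 4) := by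
    rw [smul_eq_mul, hl]; field_simp
  rw [k5] at h
  change m ≤ _ at h
  rw [div_le_iff₀ (by positivity)]
  refine le_of_mul_le_mul_right ?_ (show 0 < m / 4 by positivity)
  linarith

/-- The partition function is rarely far below the annealed one. -/
theorem annealed_low (hn : 2 ≤ n) {β : ℝ} (hβ0 : 0 < β) (hβ1 : β ≤ 1) {r : ℝ} (hr : 0 ≤ r)
    (hr' : 4 * √n * Real.exp (-(r ^ 2 / 8)) < 1) :
    (stdPi (Fin n × Fin n)).real
      {g | part n β g < annealed n β * Real.exp (-(2 * √n * r + 3))} ≤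
      Real.exp (-(r ^ 2 / 8)) := by
  have hn0 : 0 < n := by omega
  have hn' : (2 : ℝ) ≤ n := by exact_mod_cast hn
  set μ := stdPi (Fin n × Fin n)
  set b := β * (1 - 1 / (n : ℝ)) with hb
  have h1n : 1 / (n : ℝ) ≤ 1 / 2 := one_div_le_one_div_of_le two_pos hn'
  have h1p : 0 < 1 / (n : ℝ) := by positivity
  have hb0 : 0 < b := mul_pos hβ0 (by linarith)
  have hbβ : b ≤ β := mul_le_of_le_one_right hβ0.le (by linarith)
  have hb2 : b ^ 2 ≤ 1 - 1 / n := by
    have h2 : b ≤ 1 - 1 / n := mul_le_of_le_one_left (by linarith) hβ1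
    calc b ^ 2 = b * b := sq b
      _ ≤ (1 - 1 / n) * 1 := mul_le_mul h2 (hbβ.trans hβ1) hb0.le (by linarith)
      _ = _ := mul_one _
  have hC : (√(1 - b ^ 2))⁻¹ ≤ √(n : ℝ) := by
    have h : √(1 / (n : ℝ)) ≤ √(1 - b ^ 2) := Real.sqrt_le_sqrt (by linarith)
    refine (inv_anti₀ (Real.sqrt_pos.2 h1p) h).trans (le_of_eq ?_)
    rw [one_div, Real.sqrt_inv, inv_inv]
  have hsn : 0 < √(n : ℝ) := Real.sqrt_pos.2 (by linarith)
  have ht : 0 ≤ √(n : ℝ) * r := by positivity
  have hexp : (√(n : ℝ) * r) ^ 2 / (8 * √(n : ℝ) ^ 2) = r ^ 2 / 8 := by field_simp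
  have hF : Real.log (annealed n b / 2) - √n * r ≤ F n b := by
    by_contra hc
    push Not at hc
    have h1 := half_annealed_prob hn0 (by linarith) hC
    have h2 := (lip_lg_cpl (n := n) (b := b) (by rw [abs_of_pos hb0]; linarith)).tail hsn ht
    rw [hexp] at h2
    have h3 : 1 / (4 * √(n : ℝ)) ≤ Real.exp (-(r ^ 2 / 8)) := by
      refine h1.trans ((measureReal_mono ?_ (measure_ne_top _ _)).trans h2)
      intro g hg
      simp only [Set.mem_ofPred_eq] at hg ⊢
      change _ ≤ lg (cpl n b) g - F n b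
      linarith
    rw [div_le_iff₀ (by positivity)] at h3
    linarith
  have hFm := F_mono n hb0 hbβ
  have h2 := (lip_lg_cpl (n := n) (b := β) (by rw [abs_of_pos hβ0]; exact hβ1)).neg.tail hsn ht
  rw [hexp] at h2
  refine (measureReal_mono ?_ (measure_ne_top _ _)).trans h2
  intro g hg
  simp only [Set.mem_ofPred_eq, integral_neg] at hg ⊢
  change √n * r ≤ -lg (cpl n β) g - -F n β
  have hlog := Real.log_lt_log (part_pos (cpl n β) g) hg
  have hap : ∀ c : ℝ, 0 < annealed n c := fun c => by unfold annealed; positivity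
  rw [Real.log_mul (hap β).ne' (Real.exp_pos _).ne', Real.log_exp] at hlog
  rw [Real.log_div (hap b).ne' two_ne_zero] at hF
  have hla : ∀ c : ℝ, Real.log (annealed n c) = n * Real.log 2 + c ^ 2 * ((n : ℝ) - 1) / 4 :=
    fun c => by
      rw [annealed, Real.log_mul (by positivity) (Real.exp_pos _).ne', Real.log_pow, Real.log_exp]
  rw [hla] at hlog hF
  have hdiff : (β ^ 2 - b ^ 2) * ((n : ℝ) - 1) ≤ 2 := by
    have h3 : β ^ 2 - b ^ 2 ≤ 2 / (n : ℝ) := by
      calc β ^ 2 - b ^ 2 = β ^ 2 * ((1 / (n : ℝ)) * (2 - 1 / (n : ℝ))) := by rw [hb]; ring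
        _ ≤ 1 * ((1 / (n : ℝ)) * 2) := by
            refine mul_le_mul (pow_le_one₀ hβ0.le hβ1) ?_ (mul_nonneg h1p.le (by linarith))
              zero_le_one
            exact mul_le_mul_of_nonneg_left (by linarith) h1p.le
        _ = 2 / (n : ℝ) := by ring
    calc (β ^ 2 - b ^ 2) * ((n : ℝ) - 1) ≤ 2 / n * ((n : ℝ) - 1) :=
          mul_le_mul_of_nonneg_right h3 (by linarith)
      _ ≤ 2 / n * n := mul_le_mul_of_nonneg_left (by linarith) (by positivity)
      _ = 2 := by field_simp
  have hl2 : Real.log 2 ≤ 1 := by linarith [Real.log_two_lt_d9]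
  change Real.log (∑ x, Real.exp (en (cpl n β) g x)) < _ at hlog
  change √n * r ≤ -Real.log (∑ x, Real.exp (en (cpl n β) g x)) - -F n β
  linarith

end Vale.Agent.P150.Planted
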