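import Vale.Agent.P150.SlowIBP
import Vale.Agent.P347.Quarter.Gauss

/-!
Concentration and change of variables for products of standard normal laws: Lipschitz functions
for the Euclidean norm, exponential tilts, and sign changes.
-/

namespace Vale.Agent.P150.Planted

open Finset MeasureTheory ProbabilityTheory Real
open Vale.Agent.P150.Slow

variable {ι : Type} [Fintype ι]

/-- Lipschitz for the Euclidean distance. -/
def Lip2 (G : (ι → ℝ) → ℝ) (L : ℝ) : Prop :=
  0 ≤ L ∧ ∀ g h, |G g - G h| ≤ L * √(∑ e, (g e - h e) ^ 2)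

lemma mp_toLp : MeasurePreserving (WithLp.toLp 2 : (ι → ℝ) → EuclideanSpace ℝ ι) (stdPi ι)
    (stdGaussian (EuclideanSpace ℝ ι)) :=
  ⟨WithLp.measurable_toLp 2 _, map_pi_eq_stdGaussian⟩

lemma Lip2.neg {G : (ι → ℝ) → ℝ} {L : ℝ} (h : Lip2 G L) : Lip2 (fun g => -G g) L :=
  ⟨h.1, fun g g' => by simpa [abs_sub_comm, neg_add_eq_sub] using h.2 g g'⟩

lemma Lip2.lift {G : (ι → ℝ) → ℝ} {L : ℝ} (h : Lip2 G L) (x y : EuclideanSpace ℝ ι) :
    |G x.ofLp - G y.ofLp| ≤ L * ‖x - y‖ := by
  refine (h.2 _ _).trans (le_of_eq ?_)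
  congr 1
  rw [EuclideanSpace.norm_eq]
  simp

lemma Lip2.continuous {G : (ι → ℝ) → ℝ} {L : ℝ} (h : Lip2 G L) : Continuous G := by
  have hc := P347.continuous_of_lip (E := EuclideanSpace ℝ ι) h.1 h.lift
  exact hc.comp (PiLp.continuous_toLp 2 _)

lemma Lip2.integrable {G : (ι → ℝ) → ℝ} {L : ℝ} (h : Lip2 G L) : Integrable G (stdPi ι) :=
  mp_toLp.integrable_comp_of_integrable (g := fun x : EuclideanSpace ℝ ι => G x.ofLp)
    (P347.integrable_of_lip h.lift (P347.continuous_of_lip h.1 h.lift))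

lemma integral_lift {G : (ι → ℝ) → ℝ} (hG : Continuous G) :
    ∫ g, G g ∂stdPi ι = ∫ x, G x.ofLp ∂stdGaussian (EuclideanSpace ℝ ι) := by
  exact mp_toLp.integral_comp (MeasurableEquiv.toLp 2 (ι → ℝ)).measurableEmbedding
    (fun x : EuclideanSpace ℝ ι => G x.ofLp)

/-- The variance of a Lipschitz function. -/
theorem Lip2.variance_le {G : (ι → ℝ) → ℝ} {L : ℝ} (h : Lip2 G L) :
    Integrable (fun g => (G g - ∫ g', G g' ∂stdPi ι) ^ 2) (stdPi ι) ∧
      ∫ g, (G g - ∫ g', G g' ∂stdPi ι) ^ 2 ∂stdPi ι ≤ 2 * L ^ 2 := by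
  obtain ⟨hm, hv⟩ := P347.integral_sq_center_lip_le (E := EuclideanSpace ℝ ι) h.1 h.lift
  have hc := h.continuous
  rw [integral_lift (G := fun g => (G g - ∫ g', G g' ∂stdPi ι) ^ 2) (by fun_prop),
    integral_lift hc]
  refine ⟨mp_toLp.integrable_comp_of_integrable
    (g := fun x : EuclideanSpace ℝ ι =>
      (G x.ofLp - ∫ y, G y.ofLp ∂stdGaussian (EuclideanSpace ℝ ι)) ^ 2)
    (hm.sub (memLp_const _)).integrable_sq, hv.trans ?_⟩
  have hπ : Real.pi ^ 2 / 8 ≤ 2 := by nlinarith [Real.pi_pos, Real.pi_lt_d2]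
  exact mul_le_mul_of_nonneg_right hπ (sq_nonneg L)

/-- The upper tail of a Lipschitz function. -/
theorem Lip2.tail {G : (ι → ℝ) → ℝ} {L : ℝ} (h : Lip2 G L) (hL : 0 < L) {t : ℝ} (ht : 0 ≤ t) :
    (stdPi ι).real {g | t ≤ G g - ∫ g', G g' ∂stdPi ι} ≤ Real.exp (-(t ^ 2 / (8 * L ^ 2))) := by
  set s := t / (4 * L ^ 2) with hs
  obtain ⟨hi, hle⟩ := P347.integral_exp_lip_le (E := EuclideanSpace ℝ ι) h.1 h.lift s
  have hc := h.continuous
  have hm := measure_ge_le_exp_mul_mgf (μ := stdGaussian (EuclideanSpace ℝ ι))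
    (X := fun x => G x.ofLp - ∫ y, G y.ofLp ∂stdGaussian (EuclideanSpace ℝ ι)) t
    (show 0 ≤ s by positivity) hi
  have hset : (stdPi ι).real {g | t ≤ G g - ∫ g', G g' ∂stdPi ι} =
      (stdGaussian (EuclideanSpace ℝ ι)).real
        {x | t ≤ G x.ofLp - ∫ y, G y.ofLp ∂stdGaussian (EuclideanSpace ℝ ι)} := by
    have hms : MeasurableSet {x : EuclideanSpace ℝ ι |
        t ≤ G x.ofLp - ∫ y, G y.ofLp ∂stdGaussian (EuclideanSpace ℝ ι)} :=
      measurableSet_le measurable_const
        ((hc.comp (PiLp.continuous_ofLp 2 _)).measurable.sub_const _)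
    rw [measureReal_def, measureReal_def, ← mp_toLp.measure_preimage hms.nullMeasurableSet,
      integral_lift hc]
    rfl
  rw [hset]
  refine hm.trans ?_
  rw [mgf]
  refine (mul_le_mul_of_nonneg_left hle (Real.exp_pos _).le).trans ?_
  rw [← Real.exp_add]
  refine Real.exp_le_exp.2 ?_
  have hπ : Real.pi ^ 2 / 8 ≤ 2 := by nlinarith [Real.pi_pos, Real.pi_lt_d2]
  have h2 := mul_le_mul_of_nonneg_right hπ (show 0 ≤ s ^ 2 * L ^ 2 by positivity)
  have e : -s * t + 2 * (s ^ 2 * L ^ 2) = -(t ^ 2 / (8 * L ^ 2)) := by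
    rw [hs]; field_simp; ring
  linarith

/-- Exponential tilts translate the law. -/
theorem map_add_eq_withDensity (a : ι → ℝ) :
    (stdPi ι).map (fun g => g + a) = (stdPi ι).withDensity
      (fun g => ENNReal.ofReal (Real.exp (∑ e, g e * a e - (∑ e, a e ^ 2) / 2))) := by
  have hone : ∀ (c : ℝ) (s : Set ℝ), MeasurableSet s →
      (gaussianReal c 1).real s =
        ∫ x, s.indicator (fun x => Real.exp (x * c - c ^ 2 / 2)) x ∂gaussianReal 0 1 := by
    intro c s hs
    rw [measureReal_def, gaussianReal_apply_eq_integral _ one_ne_zero,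
      ENNReal.toReal_ofReal (setIntegral_nonneg hs fun x _ => gaussianPDFReal_nonneg _ _ _),
      integral_gaussianReal_eq_integral_smul one_ne_zero, ← integral_indicator hs]
    refine integral_congr_ae (ae_of_all _ fun x => ?_)
    by_cases hx : x ∈ s
    · simp only [Set.indicator_of_mem hx, smul_eq_mul, gaussianPDFReal]
      conv_rhs => rw [mul_assoc, ← Real.exp_add]
      congr 2
      push_cast
      ring
    · simp [hx]
  have hmap : (stdPi ι).map (fun g => g + a) = Measure.pi fun e => gaussianReal (a e) 1 := by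
    have : ∀ e, IsProbabilityMeasure ((gaussianReal 0 1).map fun x => x + a e) :=
      fun e => Measure.isProbabilityMeasure_map (by fun_prop)
    have h := Measure.pi_map_pi (μ := fun _ : ι => gaussianReal 0 1)
      (f := fun e x => x + a e) (fun e => by fun_prop)
    simp only [gaussianReal_map_add_const, zero_add] at h
    exact h
  rw [hmap]
  refine (Measure.pi_eq fun s hs => ?_)
  have hint : Integrable (fun g : ι → ℝ => Real.exp (∑ e, g e * a e - (∑ e, a e ^ 2) / 2))
      (stdPi ι) := by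
    have e : (fun g : ι → ℝ => Real.exp (∑ e, g e * a e - (∑ e, a e ^ 2) / 2)) =
        fun g => ∏ e, Real.exp (g e * a e - a e ^ 2 / 2) := by
      funext g
      rw [← Real.exp_sum, sum_sub_distrib, sum_div]
    rw [e, stdPi]
    refine Integrable.fintype_prod (f := fun i x => Real.exp (x * a i - a i ^ 2 / 2)) fun i => ?_
    simp only [mul_comm _ (a i), Real.exp_sub]
    exact (integrable_exp_mul_gaussianReal _).div_const _
  rw [withDensity_apply _ (MeasurableSet.univ_pi hs),
    ← ofReal_integral_eq_lintegral_ofReal hint.integrableOn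
      (ae_of_all _ fun g => (Real.exp_pos _).le),
    ← integral_indicator (MeasurableSet.univ_pi hs)]
  have e : (Set.univ.pi s).indicator
      (fun g : ι → ℝ => Real.exp (∑ e, g e * a e - (∑ e, a e ^ 2) / 2)) =
      fun g => ∏ e, (s e).indicator (fun x => Real.exp (x * a e - a e ^ 2 / 2)) (g e) := by
    funext g
    by_cases hg : g ∈ Set.univ.pi s
    · rw [Set.indicator_of_mem hg, prod_congr rfl fun e _ =>
        Set.indicator_of_mem (hg e (Set.mem_univ e)) _, ← Real.exp_sum, sum_sub_distrib, sum_div]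
    · rw [Set.indicator_of_notMem hg]
      simp only [Set.mem_univ_pi, not_forall] at hg
      obtain ⟨e, he⟩ := hg
      exact (prod_eq_zero (mem_univ e) (Set.indicator_of_notMem he _)).symm
  rw [e, stdPi, integral_fintype_prod_eq_prod
    (f := fun e x => (s e).indicator (fun x => Real.exp (x * a e - a e ^ 2 / 2)) x),
    ENNReal.ofReal_prod_of_nonneg fun e _ =>
      integral_nonneg fun x => Set.indicator_nonneg (fun y _ => (Real.exp_pos _).le) _]
  refine prod_congr rfl fun e _ => ?_
  rw [← hone _ _ (hs e), measureReal_def, ENNReal.ofReal_toReal (measure_ne_top _ _)]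

/-- An exponential tilt of an event is the event seen from the shifted sample. -/
theorem tilt_event (a : ι → ℝ) {S : Set (ι → ℝ)} (hS : MeasurableSet S) :
    Integrable (S.indicator fun g => Real.exp (∑ e, g e * a e)) (stdPi ι) ∧
      ∫ g, S.indicator (fun g => Real.exp (∑ e, g e * a e)) g ∂stdPi ι =
        Real.exp ((∑ e, a e ^ 2) / 2) * (stdPi ι).real {g | g + a ∈ S} := by
  have h := congrArg (fun μ : Measure (ι → ℝ) => μ S) (map_add_eq_withDensity a)
  simp only [withDensity_apply _ hS, Measure.map_apply (by fun_prop : Measurable fun g => g + a) hS]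
    at h
  set c := Real.exp ((∑ e, a e ^ 2) / 2)
  have hc : 0 < c := Real.exp_pos _
  have hg : ∀ g : ι → ℝ, ENNReal.ofReal (Real.exp (∑ e, g e * a e)) =
      ENNReal.ofReal c *
        ENNReal.ofReal (Real.exp (∑ e, g e * a e - (∑ e, a e ^ 2) / 2)) := fun g => by
    rw [← ENNReal.ofReal_mul hc.le, ← Real.exp_add, add_sub_cancel]
  have hl : ∫⁻ g in S, ENNReal.ofReal (Real.exp (∑ e, g e * a e)) ∂stdPi ι =
      ENNReal.ofReal c * stdPi ι {g | g + a ∈ S} := by
    simp only [hg]
    rw [lintegral_const_mul _ (by fun_prop), ← h]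
    rfl
  have hm : AEStronglyMeasurable (fun g : ι → ℝ => Real.exp (∑ e, g e * a e))
      ((stdPi ι).restrict S) := Continuous.aestronglyMeasurable (by fun_prop)
  have hi : IntegrableOn (fun g : ι → ℝ => Real.exp (∑ e, g e * a e)) S (stdPi ι) := by
    refine (lintegral_ofReal_ne_top_iff_integrable hm
      (ae_of_all _ fun g => (Real.exp_pos _).le)).1 ?_
    rw [hl]
    exact ENNReal.mul_ne_top ENNReal.ofReal_ne_top (measure_ne_top _ _)
  refine ⟨hi.integrable_indicator hS, ?_⟩
  rw [integral_indicator hS]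
  have h2 := ofReal_integral_eq_lintegral_ofReal hi (ae_of_all _ fun g => (Real.exp_pos _).le)
  rw [hl] at h2
  have h3 := congrArg ENNReal.toReal h2
  rwa [ENNReal.toReal_ofReal (integral_nonneg fun g => (Real.exp_pos _).le), ENNReal.toReal_mul,
    ENNReal.toReal_ofReal hc.le, ← measureReal_def] at h3

/-- Sign changes of coordinates preserve the law. -/
theorem mp_sign (c : ι → Bool) :
    MeasurePreserving (fun (g : ι → ℝ) e => (if c e then -g e else g e)) (stdPi ι) (stdPi ι) := by
  refine measurePreserving_pi (fun _ : ι => gaussianReal 0 1) (fun _ => gaussianReal 0 1)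
    (f := fun e x => if c e then -x else x) fun e => ?_
  by_cases h : c e
  · simp only [h, if_true]
    exact ⟨by fun_prop, by rw [gaussianReal_map_neg, neg_zero]⟩
  · simp only [h, Bool.false_eq_true, if_false]
    exact MeasurePreserving.id _

end Vale.Agent.P150.Planted
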