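import Vale.Agent.P150.Planted.Resolvent
import Vale.Agent.P150.SlowChain
import Vale.Agent.P150.Factor

/-!
A linear test function with large second moment bounds the gap and the mixing time.
-/

namespace Vale.Agent.P150.Planted

open Finset Real Matrix
open Vale.Agent.P150.Slow

variable {n : ℕ}

/-- A linear statistic. -/
def wlin (w : Fin n → ℝ) (x : Fin n → Bool) : ℝ := ∑ i, w i * spin (x i)

variable (J : Fin n → Fin n → ℝ)

lemma mean_wlin (w : Fin n → ℝ) : ∑ x, gibbs J 0 x * wlin w x = 0 := by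
  let e : (Fin n → Bool) ≃ (Fin n → Bool) :=
    ⟨fun x i => !x i, fun x i => !x i, fun x => by simp, fun x => by simp⟩
  have hw : ∀ x, gibbs J 0 (e x) = gibbs J 0 x := fun x => by
    simp only [gibbs, weight, e, Equiv.coe_fn_mk, spin_not, Pi.zero_apply, zero_mul, mul_neg,
      neg_mul, neg_neg, neg_zero]
  have h := Equiv.sum_comp e (fun x => gibbs J 0 x * wlin w x)
  have h2 : ∑ x, gibbs J 0 (e x) * wlin w (e x) = -∑ x, gibbs J 0 x * wlin w x := by
    rw [← sum_neg_distrib]
    refine sum_congr rfl fun x _ => ?_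
    rw [hw]
    simp [e, wlin, spin_not]
  linarith

lemma dirichlet_wlin (w : Fin n → ℝ) : dirichlet J 0 (wlin w) ≤ ∑ i, w i ^ 2 :=
  dirichlet_linear_le J 0 w

/-- The gap is at most the inverse Rayleigh quotient of a linear statistic. -/
theorem gap_le_of_test {T : ℝ} {w : Fin n → ℝ}
    (hT : T * ∑ i, w i ^ 2 < ∑ x, gibbs J 0 x * wlin w x ^ 2) {γ : ℝ} (hγ : 0 ≤ γ)
    (hg : GapAtLeast J 0 γ) : γ * T ≤ 1 := by
  have hv : variance J 0 (wlin w) = ∑ x, gibbs J 0 x * wlin w x ^ 2 := by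
    simp [variance, mean, mean_wlin]
  have h1 := (hg (wlin w)).trans (dirichlet_wlin J w)
  rw [hv] at h1
  have hS : 0 ≤ ∑ i, w i ^ 2 := sum_nonneg fun _ _ => sq_nonneg _
  rcases hS.eq_or_lt with h0 | h0
  · have hw : w = 0 := funext fun i => by
      simpa using (sum_eq_zero_iff_of_nonneg fun i _ => sq_nonneg _).1 h0.symm i (mem_univ i)
    subst hw
    simp [wlin] at hT
  · have h2 := mul_le_mul_of_nonneg_left hT.le hγ
    refine le_of_mul_le_mul_right ?_ h0
    linarith

/-- No time up to a multiple of `T` mixes. -/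
theorem not_mixed_of_test {T : ℝ} {w : Fin n → ℝ}
    (hT : T * ∑ i, w i ^ 2 < ∑ x, gibbs J 0 x * wlin w x ^ 2) {k : ℕ}
    (hk : (n : ℝ) * (1 / 2 : ℝ) ^ k ≤ T / 2) {t : ℝ} (ht : 0 ≤ t) (htT : 4 * k * t ≤ T) :
    ∃ x, 1 / 4 < tvGibbs J 0 t x := by
  by_contra hh
  push Not at hh
  set f := wlin w
  set S := ∑ i, w i ^ 2
  have hS : 0 ≤ S := sum_nonneg fun _ _ => sq_nonneg _
  have hiter : ∀ m : ℕ, ∀ x, |sg J f (m * t) x| ≤ √(n * S) * (1 / 2 : ℝ) ^ m := by
    intro m
    induction m with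
    | zero =>
      intro x
      simp only [Nat.cast_zero, zero_mul, sg_zero, pow_zero, mul_one]
      refine Real.abs_le_sqrt ?_
      have h := sum_mul_sq_le_sq_mul_sq univ w (fun i => spin (x i))
      simp only [sq, spin_mul_self, sum_const, card_univ, Fintype.card_fin, nsmul_one] at h ⊢
      refine h.trans (le_of_eq ?_)
      simp [S, sq, mul_comm]
    | succ m ih =>
      intro x
      rw [Nat.cast_succ, add_mul, one_mul, add_comm, sg_add]
      refine (abs_sg_le J hh (M := √(n * S) * (1 / 2 : ℝ) ^ m) ?_ (by positivity) ih x).trans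
        (le_of_eq (by rw [pow_succ]; ring))
      rw [sg_mean]
      exact mean_wlin J w
  have hup : ∑ x, gibbs J 0 x * sg J f (k * t) x ^ 2 ≤ (n : ℝ) * S * (1 / 2 : ℝ) ^ k := by
    calc _ ≤ ∑ x, gibbs J 0 x * ((n : ℝ) * S * (1 / 2 : ℝ) ^ k) := by
          refine sum_le_sum fun x _ => mul_le_mul_of_nonneg_left ?_ (gibbs_pos J x).le
          have h1 := pow_le_pow_left₀ (abs_nonneg _) (hiter k x) 2
          rw [sq_abs, mul_pow, Real.sq_sqrt (by positivity)] at h1
          refine h1.trans (mul_le_mul_of_nonneg_left ?_ (by positivity))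
          rw [← pow_mul]
          exact pow_le_pow_of_le_one (by norm_num) (by norm_num) (by omega)
      _ = _ := by rw [← sum_mul, gibbs_sum, one_mul]
  have hlow := second_moment_ge J f (t := k * t) (by positivity)
  have hD := mul_le_mul_of_nonneg_left (dirichlet_wlin J w) (show 0 ≤ 2 * (k * t) by positivity)
  have h1 := mul_le_mul_of_nonneg_right hk hS
  have h2 := mul_le_mul_of_nonneg_right htT hS
  linarith

variable {z : ℂ}

/-- A large second moment of the image of the resolvent gives a test vector. -/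
theorem exists_test (g : Fin n × Fin n → ℝ) (T : ℝ) (p : (Fin n → Bool) → ℝ)
    (h : T * ∑ k, ∑ i, ‖R g z k i‖ ^ 2 < ∑ x, p x * nrm2 (R g z *ᵥ sv x)) :
    ∃ w : Fin n → ℝ, T * ∑ i, w i ^ 2 < ∑ x, p x * wlin w x ^ 2 := by
  by_contra hh
  push Not at hh
  refine absurd h (not_lt.2 ?_)
  have e : ∀ x k, ‖(R g z *ᵥ sv x) k‖ ^ 2 =
      wlin (fun i => (R g z k i).re) x ^ 2 + wlin (fun i => (R g z k i).im) x ^ 2 := fun x k => by
    rw [Complex.sq_norm, Complex.normSq_apply]
    simp [mulVec, dotProduct, sv, wlin, sq, Complex.re_sum, Complex.im_sum]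
  simp only [nrm2, e, mul_sum, mul_add]
  rw [sum_comm]
  refine sum_le_sum fun k _ => ?_
  have h1 := hh fun i => (R g z k i).re
  have h2 := hh fun i => (R g z k i).im
  have e2 : ∀ i, T * ‖R g z k i‖ ^ 2 = T * (R g z k i).re ^ 2 + T * (R g z k i).im ^ 2 := fun i => by
    rw [Complex.sq_norm, Complex.normSq_apply]; ring
  simp only [e2, sum_add_distrib, ← mul_sum]
  simp only [← sum_add_distrib, mul_sum] at h1 h2 ⊢
  simp only [sum_add_distrib] at h1 h2 ⊢
  linarith

/-- The total squared norm of the resolvent. -/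
lemma frob_eq (hz : 0 < z.im) (hn : 0 < n) (g : Fin n × Fin n → ℝ) :
    ∑ k, ∑ i, ‖R g z k i‖ ^ 2 = n * (-(tg g z).im / z.im) := by
  have hn' : (n : ℝ) ≠ 0 := by exact_mod_cast hn.ne'
  have e : ∀ i, ∑ k, ‖R g z k i‖ ^ 2 = -(R g z i i).im / z.im := fun i => by
    rw [eq_div_iff hz.ne', mul_comm]; exact (col_le hz g i).2
  rw [sum_comm]
  simp only [e, tg, Matrix.trace, Matrix.diag, Complex.div_natCast_im, Complex.im_sum]
  rw [← sum_div, sum_neg_distrib]
  field_simp

end Vale.Agent.P150.Planted
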