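import Vale.Agent.P150.Planted.Event
import Vale.Agent.P150.Planted.Test
import Vale.Agent.P150.Planted.Annealed
import Vale.Agent.P150.Log.Lower

/-!
Polynomial critical slowing down, and the blow-up of the relaxation time below criticality.
-/

namespace Vale.Agent.P150.Planted

open Finset Real MeasureTheory Filter Matrix
open Vale.Agent.P150 Vale.Agent.P150.Slow Vale.Agent.P146
open scoped Topology

variable {n : ℕ}

/-- A linear statistic with Rayleigh quotient above `1 / (1000 η)` exists. -/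
def Testable (n : ℕ) (β η : ℝ) (g : Fin n × Fin n → ℝ) : Prop :=
  ∃ w : Fin n → ℝ, 1 / (1000 * η) * ∑ i, w i ^ 2 <
    ∑ x, gibbs (skJ n β g) 0 x * wlin w x ^ 2

/-- Transfer from the planted law. -/
theorem testable_prob (hn2 : 2 ≤ n) {β η r : ℝ} (hS : Scale n η) (hβ0 : 0 < β) (hβ1 : β ≤ 1)
    (hβη : 1 - β ≤ √η) (hr : 0 ≤ r) (hr' : 4 * √n * Real.exp (-(r ^ 2 / 8)) < 1) :
    (stdPi (Fin n × Fin n)).real {g | ¬Testable n β η g} ≤
      Real.exp (-(r ^ 2 / 8)) + Real.exp (-((n : ℝ) * η ^ 3 / 1600)) +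
        4 * Real.exp (2 * √n * r + 3 - (n : ℝ) * η ^ 3 / 1600) := by
  have hn := hS.n_pos
  have hη := hS.pos
  have hn' : (0 : ℝ) < n := by exact_mod_cast hn
  set μ := stdPi (Fin n × Fin n)
  set A := annealed n β with hA
  have hA0 : 0 < A := by rw [hA, annealed]; positivity
  set D := 2 * √n * r + 3
  set p := Real.exp (-((n : ℝ) * η ^ 3 / 1600))
  set W : (Fin n × Fin n → ℝ) → ℝ := fun g =>
    ∑ x, (LowSet n η x).indicator (fun g => Real.exp (∑ e, g e * cpl n β e x)) g with hW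
  have hT := fun x : Fin n → Bool =>
    tilt_event (fun e => cpl n β e x) (measurableSet_lowSet (n := n) hη x)
  have iW : Integrable W μ := integrable_finsetSum _ fun x _ => (hT x).1
  have hW0 : ∀ g, 0 ≤ W g := fun g =>
    sum_nonneg fun x _ => Set.indicator_nonneg (fun _ _ => (Real.exp_pos _).le) _
  have eW : ∫ g, W g ∂μ ≤ A * (2 * p) := by
    rw [integral_finsetSum _ fun x _ => (hT x).1]
    have hsum : ∑ x : Fin n → Bool, Real.exp ((∑ e, cpl n β e x ^ 2) / 2) = A := by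
      simp only [sum_cpl_sq hn, sum_const, card_univ, Fintype.card_fun, Fintype.card_bool,
        Fintype.card_fin, nsmul_eq_mul, hA, annealed, Nat.cast_pow, Nat.cast_ofNat]
      congr 2
      ring
    rw [← hsum, sum_mul]
    refine sum_le_sum fun x _ => ?_
    rw [(hT x).2]
    exact mul_le_mul_of_nonneg_left (planted_prob hS hβ0.le hβ1 hβη x) (Real.exp_pos _).le
  set B := A * Real.exp (-D) / 2 with hB
  have hB0 : 0 < B := by positivity
  have hmk : μ.real {g | B ≤ W g} ≤ 4 * Real.exp (D - (n : ℝ) * η ^ 3 / 1600) := by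
    have h := mul_meas_ge_le_integral_of_nonneg (ae_of_all _ hW0) iW B
    refine le_of_mul_le_mul_left ((h.trans eW).trans (le_of_eq ?_)) hB0
    calc A * (2 * p) = A * (2 * p) * (Real.exp (-D) * Real.exp D) := by
          rw [← Real.exp_add, neg_add_cancel, Real.exp_zero, mul_one]
      _ = B * (4 * (Real.exp D * p)) := by rw [hB]; ring
      _ = B * (4 * Real.exp (D - (n : ℝ) * η ^ 3 / 1600)) := by
          rw [← Real.exp_add, ← sub_eq_add_neg]
  have h1 := annealed_low hn2 hβ0 hβ1 hr hr'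
  have h2 := trace_prob hS
  refine le_trans (measureReal_mono (s₂ := ({g | part n β g < A * Real.exp (-D)} ∪
    {g | 3 * √η < -(tg g ⟨2, η⟩).im}) ∪ {g | B ≤ W g}) ?_ (measure_ne_top _ _))
    ((measureReal_union_le _ _).trans (add_le_add ((measureReal_union_le _ _).trans
      (add_le_add h1 h2)) hmk))
  intro g hg
  by_contra hc
  simp only [Set.mem_union, Set.mem_ofPred_eq, not_or, not_lt, not_le] at hc
  obtain ⟨⟨hpart, htr⟩, hWg⟩ := hc
  refine hg ?_
  suffices key : 1 / (1000 * η) * ∑ k, ∑ i, ‖R g ⟨2, η⟩ k i‖ ^ 2 <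
      ∑ x, gibbs (skJ n β g) 0 x * nrm2 (R g ⟨2, η⟩ *ᵥ sv x) by
    obtain ⟨w, hw⟩ := exists_test g (1 / (1000 * η)) (fun x => gibbs (skJ n β g) 0 x) key
    exact ⟨w, hw⟩
  set z : ℂ := ⟨2, η⟩ with hz
  have hs0 : 0 < √η := Real.sqrt_pos.2 hη
  have hpart0 : 0 < part n β g := part_pos _ g
  have hgib : ∀ x, gibbs (skJ n β g) 0 x =
      Real.exp (∑ e, g e * cpl n β e x) / part n β g := fun x => by
    simp only [gibbs, weight_eq, ← en_cpl]
    rfl
  have hlow : ∀ x, gibbs (skJ n β g) 0 x * (n * (1 / (160 * √η) / η)) -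
      (LowSet n η x).indicator (fun g => Real.exp (∑ e, g e * cpl n β e x)) g / part n β g *
        (n * (1 / (160 * √η) / η)) ≤
      gibbs (skJ n β g) 0 x * nrm2 (R g z *ᵥ sv x) := by
    intro x
    by_cases hx : g ∈ LowSet n η x
    · rw [Set.indicator_of_mem hx, ← hgib, sub_self]
      exact mul_nonneg (gibbs_pos _ x).le (nrm2_nonneg _)
    · rw [Set.indicator_of_notMem hx, zero_div, zero_mul, sub_zero, (qd_bound (z := z) hη hn g x).1]
      refine mul_le_mul_of_nonneg_left (mul_le_mul_of_nonneg_left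
        (div_le_div_of_nonneg_right ?_ hη.le) hn'.le) (gibbs_pos _ x).le
      exact not_lt.1 hx
  have hsum := sum_le_sum (s := univ) fun x _ => hlow x
  rw [sum_sub_distrib, ← sum_mul, gibbs_sum, one_mul, ← sum_mul, ← sum_div] at hsum
  have hhalf : W g / part n β g ≤ 1 / 2 := by
    rw [div_le_iff₀ hpart0]
    linarith
  have hK : 0 < (n : ℝ) * (1 / (160 * √η) / η) := by positivity
  have h3 : (n : ℝ) * (1 / (160 * √η) / η) / 2 ≤
      ∑ x, gibbs (skJ n β g) 0 x * nrm2 (R g z *ᵥ sv x) := by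
    have := mul_le_mul_of_nonneg_right hhalf hK.le
    simp only [hW] at this
    linarith
  refine lt_of_lt_of_le ?_ h3
  rw [frob_eq (z := z) hη hn]
  refine lt_of_le_of_lt (mul_le_mul_of_nonneg_left (mul_le_mul_of_nonneg_left
    (div_le_div_of_nonneg_right htr hη.le) hn'.le) (by positivity)) ?_
  have e : 1 / (1000 * η) * ((n : ℝ) * (3 * √η / η)) = 3 / 1000 * ((n : ℝ) / (√η * η)) := by
    field_simp
    rw [Real.sq_sqrt hη.le]
  have e' : (n : ℝ) * (1 / (160 * √η) / η) / 2 = 1 / 320 * ((n : ℝ) / (√η * η)) := by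
    field_simp; ring
  rw [e, e']
  exact mul_lt_mul_of_pos_right (by norm_num) (by positivity)

lemma log_sq_tendsto : Tendsto (fun n : ℕ => (Real.log n) ^ 2) atTop atTop :=
  (tendsto_pow_atTop two_ne_zero).comp (Real.tendsto_log_atTop.comp tendsto_natCast_atTop_atTop)

/-- The tail used in the second moment method is eventually small. -/
lemma log_cond : ∀ᶠ n : ℕ in atTop,
    4 * √n * Real.exp (-((Real.log n) ^ 2 / 8)) < 1 := by
  filter_upwards [(Real.tendsto_log_atTop.comp tendsto_natCast_atTop_atTop).eventually_ge_atTop 20,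
    eventually_gt_atTop 0] with n hl hn
  simp only [Function.comp_apply] at hl
  have hn' : (0 : ℝ) < n := by exact_mod_cast hn
  have h4 : (4 : ℝ) < Real.exp 4 := by linarith [Real.add_one_le_exp (4 : ℝ)]
  rw [Real.sqrt_eq_rpow, Real.rpow_def_of_pos hn', mul_assoc, ← Real.exp_add]
  calc 4 * Real.exp (Real.log n * (1 / 2) + -(Real.log n ^ 2 / 8))
      < Real.exp 4 * Real.exp (Real.log n * (1 / 2) + -(Real.log n ^ 2 / 8)) :=
        mul_lt_mul_of_pos_right h4 (Real.exp_pos _)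
    _ ≤ 1 := by
        rw [← Real.exp_add, Real.exp_le_one_iff]
        nlinarith

/-- Along scales `η n` with `n η ^ 3` beating `√n log n` a test statistic exists. -/
theorem testable_eventually {β : ℝ} (hβ0 : 0 < β) (hβ1 : β ≤ 1) {η : ℕ → ℝ}
    (hS : ∀ᶠ n in atTop, Scale n (η n)) (hβη : ∀ᶠ n in atTop, 1 - β ≤ √(η n))
    (hbeat : ∀ᶠ n : ℕ in atTop, 3 * √n * Real.log n ≤ (n : ℝ) * η n ^ 3 / 1600) :
    Tendsto (fun n => (stdPi (Fin n × Fin n)).real {g | ¬Testable n β (η n) g}) atTop (𝓝 0) := by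
  have hl : Tendsto (fun n : ℕ => Real.log (n : ℝ)) atTop atTop :=
    Real.tendsto_log_atTop.comp tendsto_natCast_atTop_atTop
  have hs : Tendsto (fun n : ℕ => √(n : ℝ) * Real.log n) atTop atTop :=
    (Real.tendsto_sqrt_atTop.comp tendsto_natCast_atTop_atTop).atTop_mul_atTop₀ hl
  have t1 : Tendsto (fun n : ℕ => Real.exp (-((Real.log n) ^ 2 / 8))) atTop (𝓝 0) :=
    Real.tendsto_exp_neg_atTop_nhds_zero.comp (log_sq_tendsto.atTop_div_const (by norm_num))
  have t2 : Tendsto (fun n : ℕ => Real.exp (-(3 * (√(n : ℝ) * Real.log n)))) atTop (𝓝 0) :=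
    Real.tendsto_exp_neg_atTop_nhds_zero.comp (hs.const_mul_atTop three_pos)
  have t3 : Tendsto (fun n : ℕ => 4 * (Real.exp 3 *
      Real.exp (-(√(n : ℝ) * Real.log n)))) atTop (𝓝 0) := by
    simpa using (((Real.tendsto_exp_neg_atTop_nhds_zero.comp hs)).const_mul (Real.exp 3)).const_mul 4
  refine squeeze_zero' (Eventually.of_forall fun n => measureReal_nonneg) ?_
    (by simpa using (t1.add t2).add t3)
  filter_upwards [hS, hβη, hbeat, log_cond, eventually_ge_atTop 2] with n h1 h2 h3 h4 h5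
  have hl0 : 0 ≤ Real.log (n : ℝ) := Real.log_natCast_nonneg n
  refine (testable_prob h5 h1 hβ0 hβ1 h2 hl0 h4).trans ?_
  refine add_le_add (add_le_add le_rfl (Real.exp_le_exp.2 (by linarith))) ?_
  refine mul_le_mul_of_nonneg_left ?_ (by norm_num)
  rw [← Real.exp_add]
  exact Real.exp_le_exp.2 (by linarith)

lemma tendsto_measure_of_real {S : ∀ n, Set (Fin n × Fin n → ℝ)}
    (h : Tendsto (fun n => (stdPi (Fin n × Fin n)).real (S n)) atTop (𝓝 0)) :
    Tendsto (fun n => disorder n (S n)) atTop (𝓝 0) := by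
  have e : ∀ n, disorder n (S n) = ENNReal.ofReal ((stdPi (Fin n × Fin n)).real (S n)) :=
    fun n => (ofReal_measureReal (measure_ne_top (stdPi (Fin n × Fin n)) _)).symm
  simp only [e]
  simpa using ENNReal.tendsto_ofReal h

/-- At criticality neither relaxation nor mixing is faster than `n ^ a`, `a < 1/6`. -/
theorem critical_polynomial {a : ℝ} (ha : a < 1 / 6) :
    Tendsto (fun n => disorder n {g |
      (∃ γ : ℝ, 0 < γ ∧ 1 ≤ γ * (n : ℝ) ^ a ∧ GapAtLeast (skJ n 1 g) 0 γ) ∨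
      ∃ t : ℝ, 0 ≤ t ∧ t ≤ (n : ℝ) ^ a ∧ ∀ x, tvGibbs (skJ n 1 g) 0 t x ≤ 1 / 4})
      atTop (𝓝 0) := by
  set b := (max a 0 + 1 / 6) / 2 with hb
  have hab : a < b := by rw [hb]; linarith [le_max_left a 0]
  have hb0 : 0 < b := by rw [hb]; linarith [le_max_right a 0]
  have hb6 : b < 1 / 6 := by rw [hb]; linarith [max_lt ha (by norm_num : (0 : ℝ) < 1 / 6)]
  set η : ℕ → ℝ := fun n => (n : ℝ) ^ (-b) with hη
  have hev : ∀ᶠ n : ℕ in atTop, (1 : ℝ) ≤ n := tendsto_natCast_atTop_atTop.eventually_ge_atTop 1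
  have hpow : ∀ {c : ℝ}, 0 < c → Tendsto (fun n : ℕ => (n : ℝ) ^ c) atTop atTop :=
    fun hc => (tendsto_rpow_atTop hc).comp tendsto_natCast_atTop_atTop
  have hη3 : ∀ (n : ℕ) (k : ℕ), 0 < (n : ℝ) → (n : ℝ) * η n ^ k = (n : ℝ) ^ (1 - k * b) := by
    intro n k hn
    rw [hη, ← Real.rpow_natCast, ← Real.rpow_mul hn.le, sub_eq_add_neg, Real.rpow_add hn,
      Real.rpow_one]
    congr 2
    ring
  have hlog : ∀ {c : ℝ}, 0 < c → ∀ C : ℝ, ∀ᶠ n : ℕ in atTop, C * Real.log n ≤ (n : ℝ) ^ c := by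
    intro c hc C
    have h := ((isLittleO_log_rpow_atTop hc).def (show 0 < 1 / (|C| + 1) by positivity))
    filter_upwards [tendsto_natCast_atTop_atTop.eventually h, hev] with n hn h1
    rw [Real.norm_eq_abs, Real.norm_eq_abs, abs_of_nonneg (Real.log_nonneg h1),
      abs_of_nonneg (Real.rpow_nonneg (Nat.cast_nonneg n) c), one_div, ← div_eq_inv_mul,
      le_div_iff₀ (by positivity)] at hn
    have := mul_le_mul_of_nonneg_right (show C ≤ |C| + 1 by linarith [le_abs_self C])
      (Real.log_nonneg h1)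
    linarith
  have hSc : ∀ᶠ n in atTop, Scale n (η n) := by
    filter_upwards [hev, (hpow hb0).eventually_ge_atTop 10000,
      (hpow (show 0 < 1 - (5 : ℕ) * b by push_cast; linarith)).eventually_ge_atTop 10000]
      with n h1 h2 h3
    have hn : (0 : ℝ) < n := by linarith
    refine ⟨Real.rpow_pos_of_pos hn _, ?_, by rw [hη3 n 5 hn]; exact h3⟩
    simp only [hη, Real.rpow_neg hn.le]
    rw [inv_le_comm₀ (Real.rpow_pos_of_pos hn _) (by norm_num)]
    norm_num
    exact h2
  have hbeat : ∀ᶠ n : ℕ in atTop, 3 * √(n : ℝ) * Real.log n ≤ (n : ℝ) * η n ^ 3 / 1600 := by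
    filter_upwards [hev, hlog (show 0 < 1 / 2 - 3 * b by linarith) 4800] with n h1 h2
    have hn : (0 : ℝ) < n := by linarith
    rw [hη3 n 3 hn, le_div_iff₀ (by norm_num), Real.sqrt_eq_rpow,
      show ((1 : ℝ) - (3 : ℕ) * b) = 1 / 2 + (1 / 2 - 3 * b) by push_cast; ring,
      Real.rpow_add hn]
    have := mul_le_mul_of_nonneg_left h2 (Real.rpow_nonneg hn.le (1 / 2))
    linarith
  have hmain := testable_eventually one_pos le_rfl hSc
    (Eventually.of_forall fun n => by simp) hbeat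
  refine tendsto_measure_of_real (squeeze_zero' (Eventually.of_forall fun n => measureReal_nonneg)
    ?_ hmain)
  filter_upwards [hev, hSc, hlog (sub_pos.2 hab) 24000, hlog (sub_pos.2 hab) 1,
    (hpow (sub_pos.2 hab)).eventually_ge_atTop 24000] with n h1 hs hl24 _ h24
  have hn : (0 : ℝ) < n := by linarith
  refine measureReal_mono (fun g hg => ?_) (measure_ne_top _ _)
  rintro ⟨w, hw⟩
  set T := 1 / (1000 * η n) with hT
  have hη0 := hs.pos
  have hTpow : T = (n : ℝ) ^ b / 1000 := by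
    rw [hT]; simp only [hη, Real.rpow_neg hn.le]; field_simp
  have hna : (n : ℝ) ^ a * (n : ℝ) ^ (b - a) = (n : ℝ) ^ b := by
    rw [← Real.rpow_add hn, add_sub_cancel]
  have hpa : 0 < (n : ℝ) ^ a := Real.rpow_pos_of_pos hn _
  rcases hg with ⟨γ, hγ, hγT, hgap⟩ | ⟨t, ht0, htT, hmix⟩
  · have h := gap_le_of_test _ hw hγ.le hgap
    rw [hTpow, ← hna] at h
    have h2 : γ * (n : ℝ) ^ a * 24000 ≤ γ * (n : ℝ) ^ a * (n : ℝ) ^ (b - a) :=
      mul_le_mul_of_nonneg_left h24 (by positivity)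
    linarith
  · set k := ⌈2 * Real.log n⌉₊ + 1 with hk
    have hl0 : 0 ≤ Real.log (n : ℝ) := Real.log_nonneg h1
    have hk1 : (k : ℝ) ≤ 2 * Real.log n + 2 := by
      rw [hk]; push_cast
      linarith [Nat.ceil_lt_add_one (show 0 ≤ 2 * Real.log (n : ℝ) by positivity)]
    have hk2 : (n : ℝ) * (1 / 2 : ℝ) ^ k ≤ 1 := by
      rw [← Real.exp_log hn, one_div, inv_pow, ← Real.exp_log (show (0 : ℝ) < 2 ^ k by positivity),
        ← Real.exp_neg, ← Real.exp_add, Real.exp_le_one_iff, Real.log_pow]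
      have h3 : 2 * Real.log n ≤ (k : ℝ) := by
        rw [hk]; push_cast; linarith [Nat.le_ceil (2 * Real.log (n : ℝ))]
      have h4 := mul_le_mul_of_nonneg_right h3 (show 0 ≤ Real.log 2 by positivity)
      have h5 : (1 / 2 : ℝ) * Real.log n ≤ Real.log 2 * Real.log n :=
        mul_le_mul_of_nonneg_right (by linarith [Real.log_two_gt_d9]) hl0
      linarith
    have hT2 : 2 ≤ T := by
      rw [hT, le_div_iff₀ (by positivity)]; linarith [hs.small]
    suffices key : 4 * (k : ℝ) * t ≤ T by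
      obtain ⟨x, hx⟩ := not_mixed_of_test _ hw (k := k) (by linarith) ht0 key
      exact absurd (hmix x) (not_le.2 hx)
    rw [hTpow, ← hna]
    have h2 : 4 * (k : ℝ) * t ≤ 4 * (2 * Real.log n + 2) * (n : ℝ) ^ a :=
      mul_le_mul (mul_le_mul_of_nonneg_left hk1 (by norm_num)) htT ht0 (by positivity)
    have h3 : (8 * Real.log n + 8) * 1000 ≤ (n : ℝ) ^ (b - a) := by linarith
    have h4 := mul_le_mul_of_nonneg_left h3 hpa.le
    linarith

/-- Below criticality the gap is at most a constant times `(1 - β) ^ 2`. -/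
theorem subcritical_gap : ∃ C : ℝ, 0 < C ∧ ∀ β : ℝ, 0 ≤ β → β < 1 →
    Tendsto (fun n => disorder n
      {g | ∃ γ : ℝ, C * (1 - β) ^ 2 < γ ∧ GapAtLeast (skJ n β g) 0 γ}) atTop (𝓝 0) := by
  refine ⟨10 ^ 7, by positivity, fun β hβ0 hβ1 => ?_⟩
  set η := (1 - β) ^ 2 with hη
  have hη0 : 0 < η := by rw [hη]; exact pow_pos (by linarith) 2
  by_cases hbig : 1 / 10000 < η
  · refine tendsto_const_nhds.congr' ?_
    filter_upwards [eventually_gt_atTop 0] with n hn
    refine (measure_mono_null (t := ∅) ?_ measure_empty).symm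
    rintro g ⟨γ, hγ, hgap⟩
    have := LogLow.gap_le_one hn hgap
    linarith
  push Not at hbig
  have hβp : 0 < β := by
    by_contra h
    rw [hη, show β = 0 by linarith] at hbig
    norm_num at hbig
  have hc : Tendsto (fun n : ℕ => √(n : ℝ) * η ^ 3) atTop atTop :=
    (Real.tendsto_sqrt_atTop.comp tendsto_natCast_atTop_atTop).atTop_mul_const (by positivity)
  have hSc : ∀ᶠ n : ℕ in atTop, Scale n η := by
    filter_upwards [(tendsto_natCast_atTop_atTop.atTop_mul_const
      (show 0 < η ^ 5 by positivity)).eventually_ge_atTop 10000] with n hn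
    exact ⟨hη0, hbig, hn⟩
  have hbeat : ∀ᶠ n : ℕ in atTop, 3 * √(n : ℝ) * Real.log n ≤ (n : ℝ) * η ^ 3 / 1600 := by
    have h := (isLittleO_log_rpow_atTop (show (0 : ℝ) < 1 / 2 by norm_num)).def
      (show 0 < η ^ 3 / 4800 by positivity)
    filter_upwards [tendsto_natCast_atTop_atTop.eventually h,
      tendsto_natCast_atTop_atTop.eventually_ge_atTop (1 : ℝ)] with n hn h1
    rw [Real.norm_eq_abs, Real.norm_eq_abs, abs_of_nonneg (Real.log_nonneg h1),
      abs_of_nonneg (by positivity), ← Real.sqrt_eq_rpow] at hn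
    have h2 := mul_le_mul_of_nonneg_left hn (Real.sqrt_nonneg (n : ℝ))
    calc 3 * √(n : ℝ) * Real.log n ≤ 3 * (√(n : ℝ) * (η ^ 3 / 4800 * √n)) := by linarith
      _ = (√(n : ℝ) * √n) * η ^ 3 / 1600 := by ring
      _ = _ := by rw [Real.mul_self_sqrt (by positivity)]
  have hmain := testable_eventually hβp hβ1.le (η := fun _ => η) hSc
    (Eventually.of_forall fun n => by rw [hη, Real.sqrt_sq (by linarith)]) hbeat
  refine tendsto_measure_of_real (squeeze_zero (fun n => measureReal_nonneg) (fun n => ?_) hmain)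
  refine measureReal_mono (fun g hg => ?_) (measure_ne_top _ _)
  rintro ⟨w, hw⟩
  obtain ⟨γ, hγ, hgap⟩ := hg
  have hγ0 : 0 < γ := lt_of_le_of_lt (by positivity) hγ
  have h := gap_le_of_test _ hw hγ0.le hgap
  rw [mul_one_div, div_le_one (by positivity)] at h
  nlinarith

end Vale.Agent.P150.Planted
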