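import Vale.Agent.P150.Planted.Loop
import Vale.Agent.P150.SlowRS

/-!
With the planted shift, the resolvent seen from the planted configuration is large except with
probability exponentially small in `n η ^ 3`.
-/

namespace Vale.Agent.P150.Planted

open Finset Real Matrix MeasureTheory
open Vale.Agent.P150.Slow

variable {n : ℕ} {z : ℂ}

/-- The admissible mesoscopic scales. -/
structure Scale (n : ℕ) (η : ℝ) : Prop where
  pos : 0 < η
  small : η ≤ 1 / 10000
  big : 10000 ≤ (n : ℝ) * η ^ 5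

lemma Scale.n_pos {η : ℝ} (h : Scale n η) : 0 < n := by
  rcases Nat.eq_zero_or_pos n with rfl | h0
  · have := h.big; simp at this; linarith
  · exact h0

lemma Scale.loop_small {η : ℝ} (h : Scale n η) :
    3 / (n * η ^ 2) + 8 / ((n : ℝ) ^ 2 * η ^ 4) ≤ η / 100 ∧ 4 / (n * η ^ 4) ≤ η / 1000 ∧
      1 / (n : ℝ) ≤ η / 100 := by
  have hn : (0 : ℝ) < n := by exact_mod_cast h.n_pos
  have hη := h.pos
  have h1 : η ≤ 1 := by linarith [h.small]
  have hb := h.big
  have p : ∀ k, k ≤ 5 → (n : ℝ) * η ^ 5 ≤ n * η ^ k := fun k hk =>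
    mul_le_mul_of_nonneg_left (pow_le_pow_of_le_one hη.le h1 hk) hn.le
  have p1 := p 1 (by norm_num)
  have p3 := p 3 (by norm_num)
  have p4 := p 4 (by norm_num)
  rw [pow_one] at p1
  refine ⟨?_, ?_, ?_⟩
  · have e1 : 3 / (n * η ^ 2) ≤ η / 200 := by
      rw [div_le_div_iff₀ (by positivity) (by positivity)]
      calc (3 : ℝ) * 200 ≤ (n : ℝ) * η ^ 3 := by linarith
        _ = η * ((n : ℝ) * η ^ 2) := by ring
    have e2 : 8 / ((n : ℝ) ^ 2 * η ^ 4) ≤ η / 200 := by
      rw [div_le_div_iff₀ (by positivity) (by positivity)]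
      have h1n : (1 : ℝ) ≤ n := by exact_mod_cast h.n_pos
      calc (8 : ℝ) * 200 ≤ 1 * ((n : ℝ) * η ^ 5) := by linarith
        _ ≤ (n : ℝ) * ((n : ℝ) * η ^ 5) := mul_le_mul_of_nonneg_right h1n (by positivity)
        _ = η * ((n : ℝ) ^ 2 * η ^ 4) := by ring
    linarith
  · rw [div_le_div_iff₀ (by positivity) (by positivity)]
    calc (4 : ℝ) * 1000 ≤ (n : ℝ) * η ^ 5 := by linarith
      _ = η * ((n : ℝ) * η ^ 4) := by ring
  · rw [div_le_div_iff₀ hn (by positivity)]
    linarith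

/-- Clamping turns the local Lipschitz bound into a global one. -/
lemma clamp_le {φ φ' v v' D : ℝ} (hD : 0 ≤ D) (hv : 0 ≤ v) (hv' : 0 ≤ v') (hφ : v ≤ φ)
    (hφ' : v' ≤ φ') (h1 : |φ - φ'| ≤ D * √(v * v')) (h2 : |v - v'| ≤ D * √(v * v')) :
    |min φ 1 - min φ' 1| ≤ 2 * D := by
  wlog hle : φ ≤ φ' generalizing φ φ' v v'
  · rw [abs_sub_comm]
    refine this hv' hv hφ' hφ ?_ ?_ (le_of_not_ge hle) <;> rw [abs_sub_comm, mul_comm v' v] <;>
      assumption
  rcases le_or_gt 1 φ with h | h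
  · rw [min_eq_right h, min_eq_right (h.trans hle), sub_self, abs_zero]
    positivity
  have hb : 0 ≤ φ := hv.trans hφ
  have h0 : 0 ≤ min φ' 1 - min φ 1 := sub_nonneg.2 (min_le_min_right 1 hle)
  rw [abs_sub_comm, abs_of_nonneg h0]
  rcases le_or_gt (1 / 2) D with hD2 | hD2
  · have : min φ' 1 ≤ 1 := min_le_right _ _
    rw [min_eq_left h.le]
    linarith
  set u := √(v * v') with hu
  have hu0 : 0 ≤ u := Real.sqrt_nonneg _
  have huu : u * u = v * v' := Real.mul_self_sqrt (mul_nonneg hv hv')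
  have hu2 : u ≤ 2 := by
    by_contra hc
    push Not at hc
    have k1 : v' ≤ 1 + u / 2 := by
      have := (abs_le.1 h2).1
      have := mul_le_mul_of_nonneg_right hD2.le hu0
      linarith
    have k2 : v * v' ≤ 1 * (1 + u / 2) := mul_le_mul (by linarith) k1 hv' zero_le_one
    have k3 := mul_lt_mul_of_pos_right hc (show 0 < u by linarith)
    linarith
  have h3 : φ' - φ ≤ D * 2 := by
    have := (abs_le.1 h1).1
    have := mul_le_mul_of_nonneg_left hu2 hD
    linarith
  rw [min_eq_left h.le]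
  linarith [min_le_left φ' 1]

/-- The Lipschitz constant of the clamped statistics. -/
noncomputable def LL (n : ℕ) (η : ℝ) : ℝ := 2 * (√(2 / n) / η)

lemma lip_clamps (hz : 0 < z.im) (hn : 0 < n) (x : Fin n → Bool) :
    Lip2 (fun g => min (-(qd g z x).im) 1) (LL n z.im) ∧
      Lip2 (fun g => min ‖1 - qd g z x‖ 1) (LL n z.im) := by
  have hL : 0 ≤ LL n z.im := by unfold LL; positivity
  have key : ∀ g h : Fin n × Fin n → ℝ, ∀ D, D = √(2 / n) / z.im * √(∑ e, (g e - h e) ^ 2) →
      |(-(qd g z x).im) - (-(qd h z x).im)| ≤ D * √(-(qd g z x).im * -(qd h z x).im) ∧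
      |‖1 - qd g z x‖ - ‖1 - qd h z x‖| ≤ D * √(-(qd g z x).im * -(qd h z x).im) := by
    intro g h D hD
    have h1 := qd_sub_le hz hn g h x
    rw [← hD, mul_comm (-(qd h z x).im)] at h1
    refine ⟨le_trans ?_ h1, le_trans ?_ h1⟩
    · rw [show -(qd g z x).im - -(qd h z x).im = (qd h z x - qd g z x).im by simp; ring]
      exact Complex.abs_im_le_norm _
    · refine (abs_norm_sub_norm_le _ _).trans (le_of_eq ?_)
      rw [show (1 : ℂ) - qd g z x - (1 - qd h z x) = qd h z x - qd g z x by ring]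
  have hv : ∀ g, 0 ≤ -(qd g z x).im := fun g => (qd_bound hz hn g x).2.1
  have hvw : ∀ g, -(qd g z x).im ≤ ‖1 - qd g z x‖ := fun g => by
    refine le_trans ?_ (Complex.abs_im_le_norm _)
    simpa using le_abs_self (-(qd g z x).im)
  constructor <;> refine ⟨hL, fun g h => ?_⟩
  · obtain ⟨a, -⟩ := key g h _ rfl
    refine (clamp_le (by positivity) (hv g) (hv h) le_rfl le_rfl a a).trans (le_of_eq ?_)
    rw [LL]; ring
  · obtain ⟨a, b⟩ := key g h _ rfl
    refine (clamp_le (by positivity) (hv g) (hv h) (hvw g) (hvw h) b a).trans (le_of_eq ?_)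
    rw [LL]; ring

/-- First and second moments of the resolvent seen from a configuration. -/
lemma qd_moments (hS : Scale n z.im) (hre : |z.re - 2| ≤ z.im / 100) (x : Fin n → Bool) :
    (Integrable (fun g => -(qd g z x).im) (stdPi (Fin n × Fin n)) ∧
      2 / 5 * √z.im ≤ ∫ g, -(qd g z x).im ∂stdPi (Fin n × Fin n)) ∧
    (Integrable (fun g => (qd g z x).im ^ 2) (stdPi (Fin n × Fin n)) ∧
      ∫ g, (qd g z x).im ^ 2 ∂stdPi (Fin n × Fin n) ≤ 5 * z.im) ∧
    ∫ g, ‖1 - qd g z x‖ ∂stdPi (Fin n × Fin n) ≤ 23 / 10 * √z.im := by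
  have hz := hS.pos
  have hn := hS.n_pos
  obtain ⟨hl, hc4, -⟩ := hS.loop_small
  obtain ⟨b1, b2, b3⟩ := mean_bounds hn hz (by linarith [hS.small]) hre hl
  set μ := stdPi (Fin n × Fin n)
  set η := z.im
  obtain ⟨iq, eq⟩ := mean_qd hz x
  rw [← eq] at b1 b2 b3
  set m := ∫ g, qd g z x ∂μ with hm
  have hs0 : 0 < √η := Real.sqrt_pos.2 hz
  have hss : √η * √η = η := Real.mul_self_sqrt hz.le
  set L := √(2 / n) / η ^ 2 with hLdef
  have hL2 : 2 * L ^ 2 ≤ η / 1000 := by
    rw [hLdef, div_pow, Real.sq_sqrt (by positivity), show 2 * (2 / (n : ℝ) / (η ^ 2) ^ 2) =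
      4 / (n * η ^ 4) by field_simp; ring]
    exact hc4
  have hre' : Lip2 (fun g => (qd g z x).re) L := ⟨by positivity, fun g h => by
    rw [← Complex.sub_re, ← neg_sub, Complex.neg_re, abs_neg]
    exact (Complex.abs_re_le_norm _).trans (qd_lip hz hn g h x)⟩
  have him' : Lip2 (fun g => (qd g z x).im) L := ⟨by positivity, fun g h => by
    rw [← Complex.sub_im, ← neg_sub, Complex.neg_im, abs_neg]
    exact (Complex.abs_im_le_norm _).trans (qd_lip hz hn g h x)⟩
  have er : ∫ g, (qd g z x).re ∂μ = m.re := integral_re iq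
  have ei : ∫ g, (qd g z x).im ∂μ = m.im := integral_im iq
  obtain ⟨vr1, vr2⟩ := hre'.variance_le
  obtain ⟨vi1, vi2⟩ := him'.variance_le
  rw [er] at vr1 vr2
  rw [ei] at vi1 vi2
  have ii : Integrable (fun g => (qd g z x).im) μ := iq.im
  have e2 : (fun g : Fin n × Fin n → ℝ => (qd g z x).im ^ 2) =
      fun g => ((qd g z x).im - m.im) ^ 2 + (2 * m.im * (qd g z x).im - m.im ^ 2) :=
    funext fun g => by ring
  have i' : Integrable (fun g : Fin n × Fin n → ℝ => 2 * m.im * (qd g z x).im - m.im ^ 2) μ :=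
    (ii.const_mul _).sub (integrable_const _)
  refine ⟨⟨ii.neg, by rw [integral_neg, ei]; exact b2⟩, ⟨by rw [e2]; exact vi1.add i', ?_⟩, ?_⟩
  · rw [e2, integral_add vi1 i', integral_sub (ii.const_mul _) (integrable_const _),
      integral_const_mul, ei, integral_const, probReal_univ, one_smul]
    have h5 : m.im ^ 2 ≤ (2 * √η) ^ 2 := by
      rw [← neg_sq]; exact pow_le_pow_left₀ (by linarith) b3 2
    rw [mul_pow, Real.sq_sqrt hz.le] at h5
    linarith
  · set c := 1 / 5 * √η with hc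
    have hc0 : 0 < c := by positivity
    have hpt : ∀ g, ‖1 - qd g z x‖ ≤ ‖1 - m‖ + (1 / (2 * c)) * (((qd g z x).re - m.re) ^ 2 +
        ((qd g z x).im - m.im) ^ 2) + c := fun g => by
      have h1 : ‖1 - qd g z x‖ ≤ ‖1 - m‖ + ‖qd g z x - m‖ := by
        rw [show 1 - qd g z x = (1 - m) - (qd g z x - m) by ring]; exact norm_sub_le _ _
      have h2 := Complex.norm_le_abs_re_add_abs_im (qd g z x - m)
      rw [Complex.sub_re, Complex.sub_im] at h2
      have h3 : ∀ t : ℝ, |t| ≤ 1 / (2 * c) * t ^ 2 + c / 2 := fun t => by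
        have : 0 ≤ (|t| - c) ^ 2 / (2 * c) := by positivity
        have e : (|t| - c) ^ 2 / (2 * c) = 1 / (2 * c) * t ^ 2 + c / 2 - |t| := by
          rw [sub_sq, sq_abs]; field_simp; ring
        linarith
      linarith [h3 ((qd g z x).re - m.re), h3 ((qd g z x).im - m.im)]
    have i2 : Integrable (fun g => ((qd g z x).re - m.re) ^ 2 + ((qd g z x).im - m.im) ^ 2) μ :=
      vr1.add vi1
    have i3 : Integrable (fun g => ‖1 - qd g z x‖) μ := ((integrable_const _).sub iq).norm
    have i4 : Integrable (fun g => ‖1 - m‖ + 1 / (2 * c) * (((qd g z x).re - m.re) ^ 2 +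
        ((qd g z x).im - m.im) ^ 2)) μ := (integrable_const _).add (i2.const_mul _)
    have h := integral_mono i3 (i4.add (integrable_const c)) hpt
    simp only [Pi.add_apply] at h
    rw [integral_add i4 (integrable_const c), integral_add (integrable_const _) (i2.const_mul _),
      integral_const_mul, integral_add vr1 vi1, integral_const, integral_const, probReal_univ,
      one_smul, one_smul] at h
    have h4 : 1 / (2 * c) * (∫ g, ((qd g z x).re - m.re) ^ 2 ∂μ +
        ∫ g, ((qd g z x).im - m.im) ^ 2 ∂μ) ≤ 1 / (2 * c) * (η / 500) :=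
      mul_le_mul_of_nonneg_left (by linarith) (by positivity)
    have e5 : 1 / (2 * c) * (η / 500) = √η / 200 := by
      rw [hc]
      field_simp
      rw [sq, hss]
      ring
    linarith

/-- The planted event. -/
lemma good_prob (hS : Scale n z.im) (hre : |z.re - 2| ≤ z.im / 100) (x : Fin n → Bool) :
    (stdPi (Fin n × Fin n)).real
      {g | ¬(1 / 10 * √z.im ≤ -(qd g z x).im ∧ ‖1 - qd g z x‖ ≤ 3 * √z.im)} ≤
      2 * Real.exp (-((n : ℝ) * z.im ^ 3 / 1600)) := by
  have hz := hS.pos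
  have hn := hS.n_pos
  obtain ⟨⟨i1, m1⟩, ⟨i2, m2⟩, m3⟩ := qd_moments hS hre x
  set μ := stdPi (Fin n × Fin n)
  set η := z.im
  obtain ⟨l1, l2⟩ := lip_clamps hz hn x
  have hv : ∀ g, 0 ≤ -(qd g z x).im := fun g => (qd_bound hz hn g x).2.1
  have hs0 : 0 < √η := Real.sqrt_pos.2 hz
  have hss : √η * √η = η := Real.mul_self_sqrt hz.le
  have hs1 : √η ≤ 1 / 100 := by
    rw [Real.sqrt_le_iff]; exact ⟨by norm_num, by linarith [hS.small]⟩
  have hηs : η ≤ √η / 100 := by
    calc η = √η * √η := hss.symm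
      _ ≤ √η * (1 / 100) := mul_le_mul_of_nonneg_left hs1 hs0.le
      _ = √η / 100 := by ring
  have e1 : 3 / 10 * √η ≤ ∫ g, min (-(qd g z x).im) 1 ∂μ := by
    have hpt : ∀ g, -(qd g z x).im - (qd g z x).im ^ 2 ≤ min (-(qd g z x).im) 1 := fun g => by
      refine le_min (by linarith [sq_nonneg (qd g z x).im]) ?_
      nlinarith [sq_nonneg ((qd g z x).im + 1 / 2)]
    have h := integral_mono (i1.sub i2) l1.integrable hpt
    simp only [Pi.sub_apply] at h
    rw [integral_sub i1 i2] at h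
    linarith
  have e2 : ∫ g, min ‖1 - qd g z x‖ 1 ∂μ ≤ 23 / 10 * √η := by
    refine le_trans (integral_mono l2.integrable ?_ fun g => min_le_left _ _) m3
    exact ((integrable_const _).sub (mean_qd hz x).1).norm
  have hL : 0 < LL n η := by
    have : (0 : ℝ) < n := by exact_mod_cast hn
    unfold LL; positivity
  have t1 := l1.neg.tail hL (t := 1 / 5 * √η) (by positivity)
  have t2 := l2.tail hL (t := 1 / 5 * √η) (by positivity)
  have hexp : (1 / 5 * √η) ^ 2 / (8 * LL n η ^ 2) = (n : ℝ) * η ^ 3 / 1600 := by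
    have : (0 : ℝ) < n := by exact_mod_cast hn
    rw [LL, mul_pow, mul_pow, div_pow, div_pow, Real.sq_sqrt hz.le,
      Real.sq_sqrt (show (0 : ℝ) ≤ 2 / n by positivity)]
    field_simp
    ring
  rw [hexp] at t1 t2
  refine le_trans (le_trans (measureReal_mono (s₂ := {g | 1 / 5 * √η ≤ -min (-(qd g z x).im) 1 -
      ∫ g', -min (-(qd g' z x).im) 1 ∂μ} ∪ {g | 1 / 5 * √η ≤ min ‖1 - qd g z x‖ 1 -
      ∫ g', min ‖1 - qd g' z x‖ 1 ∂μ}) ?_ (measure_ne_top _ _)) (measureReal_union_le _ _))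
    (by linarith)
  intro g hg
  simp only [Set.mem_ofPred_eq, not_and_or, not_le] at hg
  simp only [Set.mem_union, Set.mem_ofPred_eq, integral_neg]
  rcases hg with h | h
  · left
    linarith [min_le_left (-(qd g z x).im) 1]
  · right
    have : 3 * √η ≤ min ‖1 - qd g z x‖ 1 := le_min h.le (by linarith)
    linarith

lemma continuous_qd (hz : 0 < z.im) (x : Fin n → Bool) :
    Continuous fun g : Fin n × Fin n → ℝ => qd g z x := by
  simp only [qd, dotProduct, mulVec]
  exact (continuous_finsetSum _ fun i _ => continuous_const.mul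
    (continuous_finsetSum _ fun j _ => (continuous_entry hz i j).mul continuous_const)).div_const _

/-- The coupling matrix with the planted shift. -/
lemma Am_shift (hn : 0 < n) (β : ℝ) (g : Fin n × Fin n → ℝ) (x : Fin n → Bool) (i j : Fin n) :
    Am (g + fun e => cpl n β e x) i j =
      Am g i j + ((β / n : ℝ) : ℂ) * (sv x i * sv x j - if i = j then 1 else 0) := by
  have hn' : (0 : ℝ) < n := by exact_mod_cast hn
  have h : symJ (skJ n 1 (g + fun e => cpl n β e x)) i j = symJ (skJ n 1 g) i j +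
      β / n * (spin (x i) * spin (x j) - if i = j then 1 else 0) := by
    have hs : ∀ t : ℝ, 1 / √(n : ℝ) * (β / √n * t) = β / n * t := fun t => by
      rw [← mul_assoc, div_mul_div_comm, one_mul, Real.mul_self_sqrt hn'.le]
    unfold symJ skJ
    rcases lt_trichotomy i j with h | h | h
    · have hp : (i, j) ∈ pairs n := mem_filter.2 ⟨mem_univ _, h⟩
      simp only [if_pos h, if_neg h.ne, Pi.add_apply, cpl, if_pos hp, X, mul_add, hs, sub_zero]
    · subst h
      simp [spin_mul_self]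
    · have hp : (j, i) ∈ pairs n := mem_filter.2 ⟨mem_univ _, h⟩
      simp only [if_pos h, if_neg h.asymm, if_neg h.ne', Pi.add_apply, cpl, if_pos hp, X, mul_add,
        hs, sub_zero]
      ring
  rw [Am_apply, Am_apply, h, sv, sv]
  push_cast [apply_ite Complex.ofReal]
  ring

/-- The statistic is small. -/
def LowSet (n : ℕ) (η : ℝ) (x : Fin n → Bool) : Set (Fin n × Fin n → ℝ) :=
  {g | -(qd g ⟨2, η⟩ x).im < 1 / (160 * √η)}

lemma measurableSet_lowSet {η : ℝ} (hη : 0 < η) (x : Fin n → Bool) :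
    MeasurableSet (LowSet n η x) :=
  measurableSet_lt ((Complex.continuous_im.comp (continuous_qd (z := ⟨2, η⟩) hη x)).neg.measurable)
    measurable_const

/-- Under the planted law the statistic is rarely small. -/
theorem planted_prob {β η : ℝ} (hS : Scale n η) (hβ0 : 0 ≤ β) (hβ1 : β ≤ 1) (hβη : 1 - β ≤ √η)
    (x : Fin n → Bool) :
    (stdPi (Fin n × Fin n)).real {g | (g + fun e => cpl n β e x) ∈ LowSet n η x} ≤
      2 * Real.exp (-((n : ℝ) * η ^ 3 / 1600)) := by
  have hn := hS.n_pos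
  have hn' : (0 : ℝ) < n := by exact_mod_cast hn
  have hnC : (n : ℂ) ≠ 0 := by exact_mod_cast hn.ne'
  obtain ⟨-, -, h1n⟩ := hS.loop_small
  set z0 : ℂ := ⟨2, η⟩ with hz0
  set z : ℂ := ⟨2 + β / n, η⟩ with hz
  have hshift : |z.re - 2| ≤ z.im / 100 := by
    simp only [hz, add_sub_cancel_left]
    rw [abs_of_nonneg (by positivity)]
    exact le_trans (div_le_div_of_nonneg_right hβ1 hn'.le) h1n
  refine le_trans (measureReal_mono ?_ (measure_ne_top _ _)) (good_prob (z := z) hS hshift x)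
  intro g hg hgood
  obtain ⟨hv, hw⟩ := hgood
  set q := qd g z x with hq
  set h := g + fun e => cpl n β e x with hh
  set u := R g z *ᵥ sv x with hu
  have hMu : Mz h z0 *ᵥ u = (1 - (β : ℂ) * q) • sv x := by
    have hM : Mz g z *ᵥ u = sv x := by
      rw [hu, mulVec_mulVec, Mz_mul_R (z := z) hS.pos, one_mulVec]
    have hdot : ∑ j, sv x j * u j = (n : ℂ) * q := by
      rw [hq, qd, mul_div_cancel₀ _ hnC]; rfl
    rw [Mz, sub_mulVec, smul_mulVec, one_mulVec] at hM ⊢
    funext i
    have hi := congrFun hM i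
    simp only [Pi.sub_apply, Pi.smul_apply, smul_eq_mul, mulVec, dotProduct] at hi ⊢
    simp only [hh, Am_shift hn, add_mul, sum_add_distrib, mul_sub, sub_mul, sum_sub_distrib,
      mul_ite, mul_one, mul_zero, ite_mul, zero_mul, sum_ite_eq, mem_univ, if_true]
    have e1 : ∀ j, ((β / n : ℝ) : ℂ) * (sv x i * sv x j) * u j =
        ((β / n : ℝ) : ℂ) * sv x i * (sv x j * u j) := fun j => by ring
    simp only [e1, ← mul_sum, hdot]
    have e2 : z = z0 + ((β / n : ℝ) : ℂ) := by
      apply Complex.ext <;> simp [hz, hz0]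
    rw [e2] at hi
    push_cast at hi ⊢
    field_simp at hi ⊢
    linear_combination hi
  have hu2 : u = (1 - (β : ℂ) * q) • (R h z0 *ᵥ sv x) := by
    have := congrArg (fun v => R h z0 *ᵥ v) hMu
    simpa [mulVec_mulVec, R_mul_Mz (z := z0) hS.pos, mulVec_smul] using this
  have hq2 : q = (1 - (β : ℂ) * q) * qd h z0 x := by
    conv_lhs => rw [hq, qd, ← hu, hu2, dotProduct_smul, smul_eq_mul, mul_div_assoc]
    rfl
  have hs0 : 0 < √η := Real.sqrt_pos.2 hS.pos
  have hne : 1 - (β : ℂ) * q ≠ 0 := by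
    intro h0
    rw [h0, zero_mul] at hq2
    rw [hq2] at h0
    simp at h0
  have hd : ‖1 - (β : ℂ) * q‖ ≤ 4 * √η := by
    have e : (1 : ℂ) - (β : ℂ) * q = ((1 - β : ℝ) : ℂ) + (β : ℂ) * (1 - q) := by push_cast; ring
    rw [e]
    refine (norm_add_le _ _).trans ?_
    rw [norm_mul, Complex.norm_real, Complex.norm_real, Real.norm_of_nonneg (by linarith),
      Real.norm_of_nonneg hβ0]
    have h3 := mul_le_mul hβ1 hw (norm_nonneg _) zero_le_one
    linarith
  have him : -(qd h z0 x).im = -q.im / ‖1 - (β : ℂ) * q‖ ^ 2 := by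
    have e : qd h z0 x = q / (1 - (β : ℂ) * q) := by rw [eq_div_iff hne, mul_comm]; exact hq2.symm
    rw [e, Complex.div_im, Complex.sq_norm]
    simp only [Complex.sub_re, Complex.sub_im, Complex.one_re, Complex.one_im, Complex.re_ofReal_mul,
      Complex.im_ofReal_mul]
    ring
  refine (not_lt.2 ?_) (show -(qd h z0 x).im < 1 / (160 * √η) from hg)
  rw [him]
  have hp : 0 < ‖1 - (β : ℂ) * q‖ := norm_pos_iff.2 hne
  calc 1 / (160 * √η) = (1 / 10 * √η) / (4 * √η) ^ 2 := by field_simp; ring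
    _ ≤ (1 / 10 * √η) / ‖1 - (β : ℂ) * q‖ ^ 2 := by gcongr
    _ ≤ -q.im / ‖1 - (β : ℂ) * q‖ ^ 2 := div_le_div_of_nonneg_right hv (by positivity)

/-- The trace is of order `√η` with high probability. -/
theorem trace_prob {η : ℝ} (hS : Scale n η) :
    (stdPi (Fin n × Fin n)).real {g | 3 * √η < -(tg g ⟨2, η⟩).im} ≤
      Real.exp (-((n : ℝ) * η ^ 3 / 1600)) := by
  have hn := hS.n_pos
  have hn' : (0 : ℝ) < n := by exact_mod_cast hn
  have hη := hS.pos
  obtain ⟨hl, -, -⟩ := hS.loop_small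
  set z : ℂ := ⟨2, η⟩ with hz
  set μ := stdPi (Fin n × Fin n)
  obtain ⟨-, -, b3⟩ := mean_bounds (z := z) hn hη (by show η ≤ _; linarith [hS.small])
    (by simp [hz]; positivity) hl
  set L := √(2 / n) / √n / η ^ 2 with hL
  have hlip : Lip2 (fun g => -(tg g z).im) L := Lip2.neg ⟨by positivity, fun g h => by
    rw [← Complex.sub_im, ← neg_sub, Complex.neg_im, abs_neg]
    exact (Complex.abs_im_le_norm _).trans (tg_lip (z := z) hη g h)⟩
  have em : ∫ g, -(tg g z).im ∂μ = -(∫ g, tg g z ∂μ).im := by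
    rw [integral_neg]; exact congrArg Neg.neg (integral_im (integrable_tg (z := z) hη))
  have ht := hlip.tail (by rw [hL]; positivity) (Real.sqrt_nonneg η)
  refine le_trans (measureReal_mono ?_ (measure_ne_top _ _)) (ht.trans ?_)
  · intro g hg
    simp only [Set.mem_ofPred_eq] at hg ⊢
    rw [em]
    change -(∫ g, tg g z ∂μ).im ≤ 2 * √η at b3
    linarith
  · refine Real.exp_le_exp.2 (neg_le_neg ?_)
    rw [hL, div_pow, div_pow, Real.sq_sqrt (show (0 : ℝ) ≤ 2 / n by positivity),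
      Real.sq_sqrt hn'.le, Real.sq_sqrt hη.le]
    have h5 : (n : ℝ) * η ^ 5 ≤ (n : ℝ) * η ^ 2 := mul_le_mul_of_nonneg_left
      (pow_le_pow_of_le_one hη.le (by linarith [hS.small]) (by norm_num)) hn'.le
    have h6 := hS.big
    field_simp
    linarith

end Vale.Agent.P150.Planted
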