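import Vale.Agent.P150.Planted.Resolvent
import Vale.Agent.P146.Cycles

/-!
The expected resolvent near the spectral edge, from the loop equation obtained by Gaussian
integration by parts.
-/

namespace Vale.Agent.P150.Planted

open Finset Real Matrix MeasureTheory ProbabilityTheory
open Vale.Agent.P150.Slow Vale.Agent.P146

variable {n : ℕ} {z : ℂ}

lemma integrable_of_bdd {F : (Fin n × Fin n → ℝ) → ℂ} (hF : Continuous F) {B : ℝ}
    (hB : ∀ g, ‖F g‖ ≤ B) : Integrable F (stdPi (Fin n × Fin n)) :=
  (integrable_const B).mono' hF.aestronglyMeasurable (ae_of_all _ hB)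

/-- Integration by parts for complex functions. -/
theorem ibpC (e : Fin n × Fin n) (F F' : (Fin n × Fin n → ℝ) → ℂ) (hF : Continuous F)
    (hF' : Continuous F')
    (hd : ∀ g x, HasDerivAt (fun y => F (Function.update g e y)) (F' (Function.update g e x)) x)
    {B : ℝ} (hB : ∀ g, ‖F g‖ ≤ B) (hB' : ∀ g, ‖F' g‖ ≤ B) :
    Integrable (fun g => (g e : ℂ) * F g) (stdPi _) ∧
      ∫ g, (g e : ℂ) * F g ∂stdPi _ = ∫ g, F' g ∂stdPi _ := by
  have hi : Integrable (fun g => (g e : ℂ) * F g) (stdPi _) :=
    (integrable_coord e).ofReal.mul_bdd (c := B) hF.aestronglyMeasurable (ae_of_all _ hB)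
  have hi' := integrable_of_bdd hF' hB'
  have hre := Slow.ibp e (fun g => (F g).re) (fun g => (F' g).re)
    (Complex.continuous_re.comp hF) (Complex.continuous_re.comp hF')
    (fun g x => Complex.reCLM.hasFDerivAt.comp_hasDerivAt x (hd g x))
    (fun g => (Complex.abs_re_le_norm _).trans (hB g))
    (fun g => (Complex.abs_re_le_norm _).trans (hB' g))
  have him := Slow.ibp e (fun g => (F g).im) (fun g => (F' g).im)
    (Complex.continuous_im.comp hF) (Complex.continuous_im.comp hF')
    (fun g x => Complex.imCLM.hasFDerivAt.comp_hasDerivAt x (hd g x))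
    (fun g => (Complex.abs_im_le_norm _).trans (hB g))
    (fun g => (Complex.abs_im_le_norm _).trans (hB' g))
  refine ⟨hi, Complex.ext ?_ ?_⟩
  · rw [← RCLike.re_to_complex, ← RCLike.re_to_complex, ← integral_re hi, ← integral_re hi']
    simpa using hre
  · rw [← RCLike.im_to_complex, ← RCLike.im_to_complex, ← integral_im hi, ← integral_im hi']
    simpa using him

lemma integrable_entry (hz : 0 < z.im) (i j : Fin n) :
    Integrable (fun g => R g z i j) (stdPi (Fin n × Fin n)) :=
  integrable_of_bdd (continuous_entry hz i j) fun g => entry_le hz g i j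

lemma integrable_entry_mul (hz : 0 < z.im) (i j k l : Fin n) :
    Integrable (fun g => R g z i j * R g z k l) (stdPi (Fin n × Fin n)) :=
  integrable_of_bdd ((continuous_entry hz i j).mul (continuous_entry hz k l)) fun g => by
    rw [norm_mul]
    exact mul_le_mul (entry_le hz g i j) (entry_le hz g k l) (norm_nonneg _) (by positivity)

/-- Changing the sign of one spin. -/
def flipSign (i k : Fin n) : ℂ := if k = i then -1 else 1

/-- Off-diagonal entries have mean zero. -/
lemma mean_offdiag (hz : 0 < z.im) {i j : Fin n} (hij : i ≠ j) :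
    ∫ g, R g z i j ∂stdPi (Fin n × Fin n) = 0 := by
  set c : Fin n × Fin n → Bool := fun e => Bool.xor (decide (e.1 = i)) (decide (e.2 = i)) with hc
  set T : (Fin n × Fin n → ℝ) → (Fin n × Fin n → ℝ) :=
    fun g e => (if c e then -g e else g e) with hT
  set D : Matrix (Fin n) (Fin n) ℂ := diagonal (flipSign i) with hD
  have hDD : D * D = 1 := by
    rw [hD, diagonal_mul_diagonal, ← diagonal_one]
    refine congrArg diagonal (funext fun k => ?_)
    by_cases h : k = i <;> simp [flipSign, h]
  have hA : ∀ g, Am (T g) = D * Am g * D := by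
    intro g
    ext a b
    rw [hD, mul_diagonal, diagonal_mul, Am_apply, Am_apply]
    simp only [symJ, skJ, hT, hc, flipSign]
    by_cases ha : a = i <;> by_cases hb : b = i <;> rcases lt_trichotomy a b with h | h | h <;>
      simp_all [lt_asymm, mul_comm, mul_left_comm, mul_assoc] <;> simp [lt_asymm h, h]
  have hR : ∀ g, R (T g) z = D * R g z * D := by
    intro g
    rw [R, Mz, hA]
    refine inv_eq_right_inv ?_
    have e : z • (1 : Matrix (Fin n) (Fin n) ℂ) - D * Am g * D = D * Mz g z * D := by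
      rw [Mz, mul_sub, sub_mul, mul_smul_comm, mul_one, smul_mul_assoc, hDD]
    rw [e, show D * Mz g z * D * (D * R g z * D) = D * Mz g z * (D * D) * R g z * D by
      simp only [mul_assoc], hDD, mul_one, show D * Mz g z * R g z = D * (Mz g z * R g z) from
      mul_assoc _ _ _, Mz_mul_R hz, mul_one, hDD]
  have h1 : ∫ g, R (T g) z i j ∂stdPi (Fin n × Fin n) = ∫ g, R g z i j ∂stdPi (Fin n × Fin n) := by
    have hm : MeasurePreserving T (stdPi (Fin n × Fin n)) (stdPi (Fin n × Fin n)) := mp_sign c
    rw [← integral_map (φ := T) hm.measurable.aemeasurable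
      (f := fun g => R g z i j) (continuous_entry hz i j).aestronglyMeasurable, hm.map_eq]
  have h2 : ∀ g, R (T g) z i j = -R g z i j := fun g => by
    rw [hR, hD, mul_diagonal, diagonal_mul]
    simp [flipSign, hij.symm]
  simp only [h2, integral_neg] at h1
  exact self_eq_neg.1 h1.symm

lemma integrable_tg (hz : 0 < z.im) :
    Integrable (fun g => tg g z) (stdPi (Fin n × Fin n)) :=
  (integrable_finsetSum _ fun i _ => integrable_entry hz i i).div_const _

/-- The resolvent seen from any configuration has the mean of the trace. -/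
lemma mean_qd (hz : 0 < z.im) (x : Fin n → Bool) :
    Integrable (fun g => qd g z x) (stdPi (Fin n × Fin n)) ∧
      ∫ g, qd g z x ∂stdPi (Fin n × Fin n) = ∫ g, tg g z ∂stdPi (Fin n × Fin n) := by
  have hi : ∀ i j, Integrable (fun g => sv x i * (R g z i j * sv x j))
      (stdPi (Fin n × Fin n)) := fun i j => ((integrable_entry hz i j).mul_const _).const_mul _
  simp only [qd, tg, dotProduct, mulVec, Matrix.trace, Matrix.diag, mul_sum]
  refine ⟨(integrable_finsetSum _ fun i _ => integrable_finsetSum _ fun j _ => hi i j).div_const _,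
    ?_⟩
  rw [integral_div, integral_div, integral_finsetSum _ fun i _ => integrable_finsetSum _
    fun j _ => hi i j, integral_finsetSum _ fun i _ => integrable_entry hz i i]
  congr 1
  refine sum_congr rfl fun i _ => ?_
  rw [integral_finsetSum _ fun j _ => hi i j, sum_eq_single i]
  · rw [integral_const_mul, integral_mul_const]
    have : sv x i * sv x i = 1 := by
      rw [sv, ← Complex.ofReal_mul, spin_mul_self, Complex.ofReal_one]
    linear_combination (∫ g, R g z i i ∂stdPi (Fin n × Fin n)) * this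
  · intro j _ hj
    rw [integral_const_mul, integral_mul_const, mean_offdiag hz (Ne.symm hj), zero_mul, mul_zero]
  · simp

/-- Integration by parts for one pair. -/
lemma pair_term (hz : 0 < z.im) {i j : Fin n} (hij : i ≠ j) :
    Integrable (fun g => Am g i j * R g z j i) (stdPi (Fin n × Fin n)) ∧
    ∫ g, Am g i j * R g z j i ∂stdPi (Fin n × Fin n) =
      ((1 / (n : ℝ) : ℝ) : ℂ) *
        ∫ g, (R g z j i * R g z j i + R g z j j * R g z i i) ∂stdPi (Fin n × Fin n) := by
  set e := mk' i j with hee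
  have he : e ∈ pairs n := mk'_mem hij
  have hA : ∀ g, Am g i j = ((1 / √n : ℝ) : ℂ) * (g e : ℂ) := fun g => by
    rw [Am_apply, hee, ← Complex.ofReal_mul]
    unfold symJ skJ mk'
    rcases lt_trichotomy i j with h | h | h
    · simp [h]
    · exact absurd h hij
    · simp [h, lt_asymm h]
  have hcont : Continuous fun g => DR g z e j i := by
    have := fun a b : Fin n => continuous_entry hz a b
    exact continuous_const.mul (((this j e.1).mul (this e.2 i)).add ((this j e.2).mul (this e.1 i)))
  have hDb : ∀ g, ‖DR g z e j i‖ ≤ ‖((1 / √n : ℝ) : ℂ)‖ * (2 / z.im ^ 2) + 1 / z.im := fun g => by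
    have hb := fun a b c d : Fin n => mul_le_mul (entry_le hz g a b) (entry_le hz g c d)
      (norm_nonneg _) (by positivity)
    rw [DR, norm_mul]
    refine le_add_of_le_of_nonneg (mul_le_mul_of_nonneg_left ?_ (norm_nonneg _)) (by positivity)
    refine (norm_add_le _ _).trans ?_
    rw [norm_mul, norm_mul]
    refine (add_le_add (hb _ _ _ _) (hb _ _ _ _)).trans (le_of_eq ?_)
    ring
  obtain ⟨hi, he'⟩ := ibpC e (fun g => R g z j i) (fun g => DR g z e j i)
    (continuous_entry hz j i) hcont (fun g x => hasDeriv_entry hz he g j i x)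
    (fun g => (entry_le hz g j i).trans (le_add_of_nonneg_left (by positivity))) hDb
  simp only [hA, mul_assoc]
  refine ⟨hi.const_mul _, ?_⟩
  rw [integral_const_mul, he', ← integral_const_mul, ← integral_const_mul]
  refine integral_congr_ae (ae_of_all _ fun g => ?_)
  have hs : ((1 / √n : ℝ) : ℂ) * ((1 / √n : ℝ) : ℂ) = ((1 / (n : ℝ) : ℝ) : ℂ) := by
    rw [← Complex.ofReal_mul, div_mul_div_comm, one_mul, Real.mul_self_sqrt (Nat.cast_nonneg n)]
  simp only [DR, ← hs, hee, mk']
  split_ifs <;> ring

lemma var_tg (hz : 0 < z.im) :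
    Integrable (fun g => (tg g z - ∫ h, tg h z ∂stdPi (Fin n × Fin n)) ^ 2)
      (stdPi (Fin n × Fin n)) ∧
    ∫ g, ‖tg g z - ∫ h, tg h z ∂stdPi (Fin n × Fin n)‖ ^ 2 ∂stdPi (Fin n × Fin n) ≤
      4 * (√(2 / n) / √n / z.im ^ 2) ^ 2 ∧
    Integrable (fun g => ‖tg g z - ∫ h, tg h z ∂stdPi (Fin n × Fin n)‖ ^ 2)
      (stdPi (Fin n × Fin n)) := by
  set μ := stdPi (Fin n × Fin n)
  set L := √(2 / n) / √n / z.im ^ 2
  set m := ∫ h, tg h z ∂μ with hm
  have hL : 0 ≤ L := by positivity
  have hre : Lip2 (fun g => (tg g z).re) L := ⟨hL, fun g h => by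
    rw [← Complex.sub_re, ← neg_sub, Complex.neg_re, abs_neg]
    exact (Complex.abs_re_le_norm _).trans (tg_lip hz g h)⟩
  have him : Lip2 (fun g => (tg g z).im) L := ⟨hL, fun g h => by
    rw [← Complex.sub_im, ← neg_sub, Complex.neg_im, abs_neg]
    exact (Complex.abs_im_le_norm _).trans (tg_lip hz g h)⟩
  have er : ∫ g, (tg g z).re ∂μ = m.re := integral_re (integrable_tg hz)
  have ei : ∫ g, (tg g z).im ∂μ = m.im := integral_im (integrable_tg hz)
  obtain ⟨ir, vr⟩ := hre.variance_le
  obtain ⟨ii, vi⟩ := him.variance_le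
  rw [er] at ir vr
  rw [ei] at ii vi
  have e : ∀ g : Fin n × Fin n → ℝ, ‖tg g z - m‖ ^ 2 = ((tg g z).re - m.re) ^ 2 + ((tg g z).im - m.im) ^ 2 :=
    fun g => by rw [Complex.sq_norm, Complex.normSq_apply, Complex.sub_re, Complex.sub_im]; ring
  have hn2 : Integrable (fun g => ‖tg g z - m‖ ^ 2) μ := by simp only [e]; exact ir.add ii
  refine ⟨hn2.mono' ((((continuous_finsetSum _ fun i _ => continuous_entry hz i i).div_const
    _).sub continuous_const).pow 2).aestronglyMeasurable (ae_of_all _ fun g => by rw [norm_pow]),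
    ?_, hn2⟩
  simp only [e]
  rw [integral_add ir ii]
  linarith

/-- The loop equation. -/
theorem loop_eq (hz : 0 < z.im) (hn : 0 < n) :
    ‖(∫ g, tg g z ∂stdPi (Fin n × Fin n)) ^ 2 - z * ∫ g, tg g z ∂stdPi (Fin n × Fin n) + 1‖ ≤
      3 / (n * z.im ^ 2) + 8 / ((n : ℝ) ^ 2 * z.im ^ 4) := by
  set μ := stdPi (Fin n × Fin n)
  set m := ∫ g, tg g z ∂μ with hm
  have hn' : (n : ℂ) ≠ 0 := by exact_mod_cast hn.ne'
  have hnR : (0 : ℝ) < n := by exact_mod_cast hn
  set P : (Fin n × Fin n → ℝ) → ℂ := fun g => ∑ i, ∑ j, R g z j i * R g z j i with hP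
  set Dg : (Fin n × Fin n → ℝ) → ℂ := fun g => ∑ i, R g z i i * R g z i i with hDg
  have iP : Integrable P μ := integrable_finsetSum _ fun i _ =>
    integrable_finsetSum _ fun j _ => integrable_entry_mul hz j i j i
  have iD : Integrable Dg μ := integrable_finsetSum _ fun i _ => integrable_entry_mul hz i i i i
  obtain ⟨iv, hv, ivn⟩ := var_tg (n := n) hz
  have iG : Integrable (fun g => tg g z ^ 2) μ := by
    refine ((iv.add ((integrable_tg hz).const_mul (2 * m))).sub
      (integrable_const (m ^ 2))).congr (ae_of_all _ fun g => ?_)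
    simp only [Pi.add_apply, Pi.sub_apply, ← hm]
    ring
  have hsq : ∫ g, (tg g z - m) ^ 2 ∂μ = ∫ g, tg g z ^ 2 ∂μ - m ^ 2 := by
    have e : (fun g : Fin n × Fin n → ℝ => (tg g z - m) ^ 2) = fun g => tg g z ^ 2 - ((2 * m) * tg g z - m ^ 2) :=
      funext fun g => by ring
    have i' : Integrable (fun g : Fin n × Fin n → ℝ => 2 * m * tg g z - m ^ 2) μ :=
      ((integrable_tg hz).const_mul _).sub (integrable_const _)
    rw [e, integral_sub iG i',
      integral_sub ((integrable_tg hz).const_mul _) (integrable_const _), integral_const_mul,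
      integral_const, ← hm]
    simp
    ring
  have hpt : ∀ g : Fin n × Fin n → ℝ, z * ((n : ℂ) * tg g z) =
      n + ∑ i, ∑ j, Am g i j * R g z j i := by
    intro g
    have h := congrArg Matrix.trace (Mz_mul_R hz g)
    rw [Mz, sub_mul, smul_mul_assoc, one_mul, trace_sub, trace_smul, trace_one,
      Fintype.card_fin, smul_eq_mul, sub_eq_iff_eq_add] at h
    rw [tg, mul_div_cancel₀ _ hn', h]
    simp [Matrix.trace, Matrix.mul_apply]
  set K : Fin n → Fin n → (Fin n × Fin n → ℝ) → ℂ := fun i j g =>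
    R g z j i * R g z j i + R g z j j * R g z i i with hK
  have iK : ∀ i j, Integrable (K i j) μ := fun i j =>
    (integrable_entry_mul hz j i j i).add (integrable_entry_mul hz j j i i)
  have hterm : ∀ i j, Integrable (fun g => Am g i j * R g z j i) μ ∧
      ∫ g, Am g i j * R g z j i ∂μ = ((1 / (n : ℝ) : ℝ) : ℂ) *
        ∫ g, (if i = j then 0 else K i j g) ∂μ := by
    intro i j
    by_cases hij : i = j
    · subst hij
      have h0 : ∀ g : Fin n × Fin n → ℝ, Am g i i = 0 := fun g => by simp [Am_apply, symJ_self]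
      simp [h0]
    · simp only [if_neg hij]
      exact pair_term hz hij
  have hmain : z * ((n : ℂ) * m) =
      n + ((1 / (n : ℝ) : ℝ) : ℂ) * ∫ g, (P g + ((n : ℂ) * tg g z) ^ 2 - 2 * Dg g) ∂μ := by
    have i1 : Integrable (fun g => ∑ i, ∑ j, Am g i j * R g z j i) μ :=
      integrable_finsetSum _ fun i _ => integrable_finsetSum _ fun j _ => (hterm i j).1
    rw [hm, ← integral_const_mul, ← integral_const_mul]
    simp only [hpt]
    have ic : ∀ i j, Integrable (fun g => if i = j then 0 else K i j g) μ := fun i j => by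
      by_cases hij : i = j <;> simp [hij, iK]
    rw [integral_add (integrable_const _) i1, integral_const, probReal_univ, one_smul,
      integral_finsetSum _ fun i _ => integrable_finsetSum _ fun j _ => (hterm i j).1]
    congr 1
    simp only [integral_finsetSum _ fun j _ => (hterm _ j).1, (hterm _ _).2, ← mul_sum]
    congr 1
    simp only [← integral_finsetSum _ fun j _ => ic _ j]
    rw [← integral_finsetSum _ fun i _ => integrable_finsetSum _ fun j _ => ic i j]
    refine integral_congr_ae (ae_of_all _ fun g => ?_)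
    have e : ∀ i j, (if i = j then 0 else K i j g) = K i j g - if i = j then K i j g else 0 :=
      fun i j => by split_ifs <;> ring
    simp only [e, sum_sub_distrib, sum_ite_eq, mem_univ, if_true]
    simp only [hK, sum_add_distrib, hP, hDg,
      tg, mul_div_cancel₀ _ hn', Matrix.trace, Matrix.diag]
    rw [sq, Finset.sum_mul_sum]
    simp only [mul_comm (R g z _ _) (R g z _ _)]
    ring
  have i2 : Integrable (fun g => ((n : ℂ) * tg g z) ^ 2) μ := by
    simp only [mul_pow]; exact iG.const_mul _
  have i3 : Integrable (fun g => P g + ((n : ℂ) * tg g z) ^ 2) μ := iP.add i2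
  rw [integral_sub i3 (iD.const_mul 2), integral_add iP i2, integral_const_mul] at hmain
  simp only [mul_pow] at hmain
  rw [integral_const_mul] at hmain
  have hid : m ^ 2 - z * m + 1 = -(∫ g, (tg g z - m) ^ 2 ∂μ) -
      ((1 / (n : ℝ) ^ 2 : ℝ) : ℂ) * (∫ g, P g ∂μ - 2 * ∫ g, Dg g ∂μ) := by
    rw [hsq]
    push_cast at hmain ⊢
    field_simp at hmain ⊢
    linear_combination -hmain
  rw [hid]
  refine (norm_sub_le _ _).trans ?_
  rw [norm_neg, add_comm]
  refine add_le_add ?_ ?_
  · have hcolb : ∀ (g : Fin n × Fin n → ℝ) i, ∑ j, ‖R g z j i‖ ^ 2 ≤ 1 / z.im ^ 2 := fun g i => by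
      rw [le_div_iff₀ (by positivity), mul_comm]
      exact (col_le hz g i).1
    have bP : ∀ g : Fin n × Fin n → ℝ, ‖P g‖ ≤ n / z.im ^ 2 := fun g => by
      refine (norm_sum_le _ _).trans ((sum_le_sum fun i _ => (norm_sum_le _ _).trans ?_).trans
        (le_of_eq (show ∑ _i : Fin n, 1 / z.im ^ 2 = (n : ℝ) / z.im ^ 2 by
          simp [div_eq_mul_inv])))
      simp only [norm_mul]
      simp only [← sq]
      exact hcolb g i
    have bD : ∀ g : Fin n × Fin n → ℝ, ‖Dg g‖ ≤ n / z.im ^ 2 := fun g => by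
      refine (norm_sum_le _ _).trans ((sum_le_sum fun i _ => ?_).trans
        (le_of_eq (show ∑ _i : Fin n, 1 / z.im ^ 2 = (n : ℝ) / z.im ^ 2 by
          simp [div_eq_mul_inv])))
      rw [norm_mul, ← sq]
      exact (single_le_sum (f := fun j => ‖R g z j i‖ ^ 2) (fun _ _ => sq_nonneg _)
        (mem_univ i)).trans (hcolb g i)
    have h1 : ‖∫ g, P g ∂μ‖ ≤ n / z.im ^ 2 := (norm_integral_le_integral_norm _).trans
      ((integral_mono iP.norm (integrable_const _) bP).trans (le_of_eq (by simp)))
    have h2 : ‖∫ g, Dg g ∂μ‖ ≤ n / z.im ^ 2 := (norm_integral_le_integral_norm _).trans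
      ((integral_mono iD.norm (integrable_const _) bD).trans (le_of_eq (by simp)))
    rw [norm_mul, Complex.norm_real, Real.norm_of_nonneg (by positivity)]
    refine (mul_le_mul_of_nonneg_left ((norm_sub_le _ _).trans (add_le_add h1
      ((norm_mul _ _).le.trans (mul_le_mul_of_nonneg_left h2 (norm_nonneg _)))))
      (by positivity)).trans (le_of_eq ?_)
    simp only [Complex.norm_ofNat]
    field_simp
    ring
  · refine (norm_integral_le_integral_norm _).trans ?_
    simp only [norm_pow]
    refine hv.trans (le_of_eq ?_)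
    rw [div_pow, div_pow, Real.sq_sqrt (by positivity), Real.sq_sqrt hnR.le]
    field_simp
    ring

/-- A complex square root with square close to `i s ^ 2`. -/
lemma sqrt_root {a b s : ℝ} (hs : 0 < s) (hb : 0 < b) (h1 : 49 / 100 * (s * s) ≤ a * b)
    (h2 : a * b ≤ 51 / 100 * (s * s)) (h3 : |a * a - b * b| ≤ 3 / 100 * (s * s)) :
    0 < a ∧ a ≤ 4 / 5 * s ∧ 2 / 3 * s ≤ b ∧ b ≤ 4 / 5 * s := by
  have hd := abs_le.1 h3
  have hp : 0 < s * s := mul_pos hs hs
  have ha : 0 < a := (mul_pos_iff_of_pos_right hb).1 (by linarith)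
  have hb1 : 2 / 3 * s ≤ b := by
    by_contra h
    push Not at h
    have h4 : a ≤ 7 / 10 * s := by
      by_contra h'
      push Not at h'
      have p1 := mul_lt_mul'' h' h' (by positivity) (by positivity)
      have p2 := mul_lt_mul'' h h hb.le hb.le
      linarith
    have p3 := mul_le_mul h4 h.le hb.le (by positivity)
    linarith
  have ha1 : a ≤ 4 / 5 * s := by
    by_contra h
    push Not at h
    have p := mul_le_mul h.le hb1 (by positivity) ha.le
    linarith
  refine ⟨ha, ha1, hb1, ?_⟩
  by_contra h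
  push Not at h
  have p1 := mul_lt_mul'' h h (by positivity) (by positivity)
  have p2 := mul_lt_mul'' h h (by positivity) (by positivity)
  have h5 : a ≤ 7 / 10 * s := by
    by_contra h'
    push Not at h'
    have := mul_lt_mul'' h' h (by positivity) (by positivity)
    linarith
  have p3 := mul_le_mul h5 h5 ha.le (by positivity)
  linarith

/-- Selection of the root of the perturbed semicircle equation. -/
lemma root_bounds {m : ℂ} (hz : 0 < z.im) (hη : z.im ≤ 1 / 100)
    (hre : |z.re - 2| ≤ z.im / 100) (hm0 : m.im ≤ 0)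
    (hloop : ‖m ^ 2 - z * m + 1‖ ≤ z.im / 100) :
    ‖1 - m‖ ≤ 2 * √z.im ∧ 2 / 5 * √z.im ≤ -m.im ∧ -m.im ≤ 2 * √z.im := by
  set η := z.im
  set δ := m ^ 2 - z * m + 1 with hδdef
  have hδ : ‖δ‖ ≤ η / 100 := hloop
  have hs0 : 0 < √η := Real.sqrt_pos.2 hz
  have hss : √η * √η = η := Real.mul_self_sqrt hz.le
  have hs1 : √η ≤ 1 / 10 := by
    rw [Real.sqrt_le_iff]; exact ⟨by norm_num, by linarith⟩
  have hsη : η ≤ √η / 10 := by nlinarith
  set w := 1 - m + (z - 2) / 2 with hw
  have hw2 : w ^ 2 = (z - 2) + δ + (z - 2) ^ 2 / 4 := by rw [hw, hδdef]; ring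
  set a := z.re - 2 with ha
  have har := abs_le.1 hre
  have hdr := abs_le.1 ((Complex.abs_re_le_norm δ).trans hδ)
  have hdi := abs_le.1 ((Complex.abs_im_le_norm δ).trans hδ)
  have ea2 : a * a ≤ η * η := by
    calc a * a = |a| * |a| := (abs_mul_abs_self a).symm
      _ ≤ η * η := mul_le_mul (by linarith) (by linarith) (abs_nonneg _) hz.le
  have eη2 : η * η ≤ η / 100 := by nlinarith
  have eaη : |a * η| ≤ η / 100 := by
    rw [abs_mul, abs_of_pos hz]
    nlinarith [abs_nonneg a]
  have eaη' := abs_le.1 eaη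
  have hR : w.re * w.re - w.im * w.im = a + δ.re + (a * a - η * η) / 4 := by
    have h := congrArg Complex.re hw2
    simp [sq] at h
    linarith
  have hI : 2 * (w.re * w.im) = η + δ.im + a * η / 2 := by
    have h := congrArg Complex.im hw2
    simp [sq] at h
    linarith
  have hbpos : 0 < w.im := by
    simp [hw]
    linarith
  have hab : 49 / 100 * η ≤ w.re * w.im := by linarith
  have hdiff : |w.re * w.re - w.im * w.im| ≤ 3 / 100 * η := by
    rw [abs_le]
    constructor <;> linarith [mul_self_nonneg a, mul_self_nonneg η]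
  obtain ⟨hapos, ha1, hb1, hb2⟩ := sqrt_root hs0 hbpos (by rw [hss]; exact hab)
    (by rw [hss]; linarith) (by rw [hss]; exact hdiff)
  have e1 : (1 - m).re = w.re - a / 2 := by simp [hw, ha]
  have e2 : -m.im = w.im - η / 2 := by simp [hw]; try ring
  refine ⟨?_, by linarith, by linarith⟩
  refine (Complex.norm_le_abs_re_add_abs_im _).trans ?_
  have h1 : |(1 - m).re| ≤ 9 / 10 * √η := by
    rw [e1, abs_le]
    constructor <;> linarith
  have h2 : |(1 - m).im| ≤ 9 / 10 * √η := by
    rw [Complex.sub_im, Complex.one_im, zero_sub, e2, abs_le]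
    constructor <;> linarith
  linarith


/-- Root selection: near the edge the mean resolvent is `1 - O(√η)` with imaginary part `√η`. -/
theorem mean_bounds (hn : 0 < n) (hz : 0 < z.im) (hη : z.im ≤ 1 / 100)
    (hre : |z.re - 2| ≤ z.im / 100)
    (hsmall : 3 / (n * z.im ^ 2) + 8 / ((n : ℝ) ^ 2 * z.im ^ 4) ≤ z.im / 100) :
    ‖1 - ∫ g, tg g z ∂stdPi (Fin n × Fin n)‖ ≤ 2 * √z.im ∧
      2 / 5 * √z.im ≤ -(∫ g, tg g z ∂stdPi (Fin n × Fin n)).im ∧
      -(∫ g, tg g z ∂stdPi (Fin n × Fin n)).im ≤ 2 * √z.im := by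
  have hm0 : (∫ g, tg g z ∂stdPi (Fin n × Fin n)).im ≤ 0 := by
    have e : ∫ g, (tg g z).im ∂stdPi (Fin n × Fin n) =
        (∫ g, tg g z ∂stdPi (Fin n × Fin n)).im := integral_im (integrable_tg hz)
    rw [← e]
    refine integral_nonpos fun g => ?_
    simp only [tg, Matrix.trace, Matrix.diag, Complex.div_natCast_im, Complex.im_sum,
      Pi.zero_apply]
    refine div_nonpos_of_nonpos_of_nonneg (sum_nonpos fun i _ => ?_) (Nat.cast_nonneg n)
    have h1 := (col_le hz g i).2
    have h2 : 0 ≤ z.im * ∑ j, ‖R g z j i‖ ^ 2 :=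
      mul_nonneg hz.le (sum_nonneg fun j _ => sq_nonneg _)
    linarith
  exact root_bounds hz hη hre hm0 ((loop_eq hz hn).trans hsmall)

end Vale.Agent.P150.Planted
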