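import Vale.Agent.P150.Planted.Conc
import Vale.Agent.P150.Gap
import Vale.Agent.P150.SlowEnergy

/-!
The resolvent of the symmetric zero diagonal coupling matrix at a non-real parameter: bounds,
Lipschitz estimates in the disorder, and the derivative in one coupling.
-/

namespace Vale.Agent.P150.Planted

open Finset Real Matrix Filter
open Vale.Agent.P150.Slow
open scoped Topology

variable {n : ℕ}

/-- The normalised coupling matrix. -/
noncomputable def Am (g : Fin n × Fin n → ℝ) : Matrix (Fin n) (Fin n) ℂ :=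
  Matrix.of fun i j => ((symJ (skJ n 1 g) i j : ℝ) : ℂ)

/-- The shifted matrix. -/
noncomputable def Mz (g : Fin n × Fin n → ℝ) (z : ℂ) : Matrix (Fin n) (Fin n) ℂ :=
  z • 1 - Am g

/-- The resolvent. -/
noncomputable def R (g : Fin n × Fin n → ℝ) (z : ℂ) : Matrix (Fin n) (Fin n) ℂ := (Mz g z)⁻¹

/-- A configuration as a complex vector. -/
def sv (x : Fin n → Bool) : Fin n → ℂ := fun i => ((spin (x i) : ℝ) : ℂ)

/-- The resolvent seen from a configuration. -/
noncomputable def qd (g : Fin n × Fin n → ℝ) (z : ℂ) (x : Fin n → Bool) : ℂ :=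
  (sv x ⬝ᵥ (R g z *ᵥ sv x)) / n

/-- The normalised trace of the resolvent. -/
noncomputable def tg (g : Fin n × Fin n → ℝ) (z : ℂ) : ℂ := (R g z).trace / n

/-- Squared Euclidean norm. -/
noncomputable def nrm2 {κ : Type*} [Fintype κ] (v : κ → ℂ) : ℝ := ∑ i, ‖v i‖ ^ 2

lemma nrm2_nonneg {κ : Type*} [Fintype κ] (v : κ → ℂ) : 0 ≤ nrm2 v :=
  sum_nonneg fun _ _ => sq_nonneg _

lemma norm_dot_le {κ : Type*} [Fintype κ] (a b : κ → ℂ) :
    ‖∑ i, a i * b i‖ ≤ √(nrm2 a) * √(nrm2 b) := by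
  refine (norm_sum_le _ _).trans ?_
  simp only [norm_mul, nrm2]
  exact Real.sum_mul_le_sqrt_mul_sqrt univ (fun i => ‖a i‖) fun i => ‖b i‖

lemma nrm2_sv (x : Fin n → Bool) : nrm2 (sv x) = n := by
  have h : ∀ i, ‖sv x i‖ ^ 2 = 1 := fun i => by
    rw [sv, Complex.norm_real, Real.norm_eq_abs, sq_abs, sq, spin_mul_self]
  simp [nrm2, h]

lemma star_sv (x : Fin n → Bool) : star (sv x) = sv x := by
  funext i; simp [sv]

lemma Am_apply (g : Fin n × Fin n → ℝ) (i j : Fin n) :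
    Am g i j = ((symJ (skJ n 1 g) i j : ℝ) : ℂ) := rfl

lemma Am_symm (g : Fin n × Fin n → ℝ) : (Am g)ᵀ = Am g := by
  ext i j; simp [Am_apply, symJ_comm]

lemma im_quad_Am (g : Fin n × Fin n → ℝ) (v : Fin n → ℂ) :
    (star v ⬝ᵥ (Am g *ᵥ v)).im = 0 := by
  have h : (starRingEnd ℂ) (star v ⬝ᵥ (Am g *ᵥ v)) = star v ⬝ᵥ (Am g *ᵥ v) := by
    simp only [dotProduct, mulVec, Finset.mul_sum, map_sum, map_mul, Pi.star_apply,
      RCLike.star_def, Complex.conj_conj, Am_apply, Complex.conj_ofReal]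
    rw [sum_comm]
    refine sum_congr rfl fun i _ => sum_congr rfl fun j _ => ?_
    rw [symJ_comm (skJ n 1 g) j i]
    ring
  exact Complex.conj_eq_iff_im.1 h

lemma quad_im (g : Fin n × Fin n → ℝ) (z : ℂ) (v : Fin n → ℂ) :
    (star v ⬝ᵥ (Mz g z *ᵥ v)).im = z.im * nrm2 v := by
  have e : star v ⬝ᵥ v = ((nrm2 v : ℝ) : ℂ) := by
    simp only [nrm2, dotProduct, Pi.star_apply, Complex.ofReal_sum]
    refine sum_congr rfl fun i _ => ?_
    rw [RCLike.star_def, Complex.conj_mul', Complex.ofReal_pow]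
  rw [Mz, sub_mulVec, dotProduct_sub, Complex.sub_im, im_quad_Am, smul_mulVec, one_mulVec,
    dotProduct_smul, e]
  simp

variable {z : ℂ}

lemma isUnit_det (hz : 0 < z.im) (g : Fin n × Fin n → ℝ) : IsUnit (Mz g z).det := by
  rw [← Matrix.isUnit_iff_isUnit_det, ← Matrix.mulVec_injective_iff_isUnit]
  intro u w h
  have h0 : Mz g z *ᵥ (u - w) = 0 := by rw [mulVec_sub, sub_eq_zero]; exact h
  have h1 := quad_im g z (u - w)
  rw [h0, dotProduct_zero, Complex.zero_im] at h1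
  have h2 : nrm2 (u - w) = 0 := (mul_eq_zero.1 h1.symm).resolve_left hz.ne'
  funext i
  have h3 := (sum_eq_zero_iff_of_nonneg fun i _ => sq_nonneg _).1 h2 i (mem_univ i)
  simpa [sub_eq_zero] using h3

lemma Mz_mul_R (hz : 0 < z.im) (g : Fin n × Fin n → ℝ) : Mz g z * R g z = 1 :=
  mul_nonsing_inv _ (isUnit_det hz g)

lemma R_mul_Mz (hz : 0 < z.im) (g : Fin n × Fin n → ℝ) : R g z * Mz g z = 1 :=
  nonsing_inv_mul _ (isUnit_det hz g)

lemma R_symm (g : Fin n × Fin n → ℝ) : (R g z)ᵀ = R g z := by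
  rw [R, transpose_nonsing_inv, Mz, transpose_sub, transpose_smul, transpose_one, Am_symm]

/-- The imaginary part of the resolvent measures the norm of its image. -/
lemma sol_im (hz : 0 < z.im) (g : Fin n × Fin n → ℝ) (v : Fin n → ℂ) :
    (star v ⬝ᵥ (R g z *ᵥ v)).im = -(z.im * nrm2 (R g z *ᵥ v)) := by
  set u := R g z *ᵥ v with hu
  have hM : Mz g z *ᵥ u = v := by rw [hu, mulVec_mulVec, Mz_mul_R hz, one_mulVec]
  have h := quad_im g z u
  rw [hM] at h
  have e : star v ⬝ᵥ u = (starRingEnd ℂ) (star u ⬝ᵥ v) := by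
    simp only [dotProduct, map_sum, map_mul, Pi.star_apply, RCLike.star_def, Complex.conj_conj]
    exact sum_congr rfl fun i _ => mul_comm _ _
  rw [e, Complex.conj_im, h]

lemma nrm2_star (v : Fin n → ℂ) : nrm2 (star v) = nrm2 v := by simp [nrm2]

lemma nrm2_R_le (hz : 0 < z.im) (g : Fin n × Fin n → ℝ) (v : Fin n → ℂ) :
    z.im ^ 2 * nrm2 (R g z *ᵥ v) ≤ nrm2 v := by
  set u := R g z *ᵥ v
  have h1 : z.im * nrm2 u ≤ √(nrm2 v) * √(nrm2 u) := by
    have h := sol_im hz g v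
    have h2 := Complex.abs_im_le_norm (star v ⬝ᵥ u)
    have h3 := norm_dot_le (star v) u
    rw [nrm2_star] at h3
    have h4 := neg_abs_le (star v ⬝ᵥ u).im
    simp only [dotProduct] at h h2 h4
    linarith
  rcases (nrm2_nonneg u).eq_or_lt with h0 | h0
  · rw [← h0]; simpa using nrm2_nonneg v
  have hs := Real.sqrt_pos.2 h0
  have h5 : z.im * √(nrm2 u) ≤ √(nrm2 v) := by
    refine le_of_mul_le_mul_right ?_ hs
    rw [mul_assoc, Real.mul_self_sqrt h0.le]
    exact h1
  have h6 := mul_self_le_mul_self (by positivity) h5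
  rw [Real.mul_self_sqrt (nrm2_nonneg v)] at h6
  nlinarith [Real.mul_self_sqrt h0.le]

lemma col_eq (g : Fin n × Fin n → ℝ) (j : Fin n) :
    R g z *ᵥ Pi.single j 1 = fun i => R g z i j := by
  funext i; simp

lemma nrm2_single (j : Fin n) : nrm2 (Pi.single j (1 : ℂ)) = 1 := by
  rw [nrm2, sum_eq_single j (fun b _ hb => by simp [hb]) (by simp)]
  simp

/-- Each column has squared norm at most `1 / η ^ 2`, given by the diagonal entry. -/
lemma col_le (hz : 0 < z.im) (g : Fin n × Fin n → ℝ) (j : Fin n) :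
    z.im ^ 2 * ∑ i, ‖R g z i j‖ ^ 2 ≤ 1 ∧
      z.im * ∑ i, ‖R g z i j‖ ^ 2 = -(R g z j j).im := by
  have h1 := nrm2_R_le hz g (Pi.single j 1)
  have h2 := sol_im hz g (Pi.single j 1)
  rw [col_eq, nrm2_single] at h1
  have hs : star (Pi.single j (1 : ℂ) : Fin n → ℂ) = Pi.single j 1 := by
    funext i; by_cases h : i = j <;> simp [h]
  rw [col_eq, hs, single_one_dotProduct] at h2
  exact ⟨h1, by rw [h2]; simp [nrm2]⟩

lemma entry_le (hz : 0 < z.im) (g : Fin n × Fin n → ℝ) (i j : Fin n) :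
    ‖R g z i j‖ ≤ 1 / z.im := by
  have h := (col_le hz g j).1
  have h2 : ‖R g z i j‖ ^ 2 ≤ ∑ k, ‖R g z k j‖ ^ 2 :=
    single_le_sum (f := fun k => ‖R g z k j‖ ^ 2) (fun _ _ => sq_nonneg _) (mem_univ i)
  rw [le_div_iff₀ hz]
  have h3 : (‖R g z i j‖ * z.im) ^ 2 ≤ 1 ^ 2 := by
    rw [mul_pow, one_pow, mul_comm]
    exact (mul_le_mul_of_nonneg_left h2 (sq_nonneg _)).trans h
  exact (abs_le_of_sq_le_sq' h3 zero_le_one).2

lemma R_sub (hz : 0 < z.im) (g h : Fin n × Fin n → ℝ) :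
    R h z - R g z = R h z * (Am h - Am g) * R g z := by
  have e : Am h - Am g = Mz g z - Mz h z := by simp only [Mz]; abel
  rw [e, mul_sub, sub_mul, R_mul_Mz hz h, one_mul, mul_assoc, Mz_mul_R hz g, mul_one]

lemma norm_form_le (D : Matrix (Fin n) (Fin n) ℂ) (a b : Fin n → ℂ) :
    ‖a ⬝ᵥ (D *ᵥ b)‖ ≤ √(∑ i, ∑ j, ‖D i j‖ ^ 2) * (√(nrm2 a) * √(nrm2 b)) := by
  have h1 := norm_dot_le a (D *ᵥ b)
  have h2 : nrm2 (D *ᵥ b) ≤ (∑ i, ∑ j, ‖D i j‖ ^ 2) * nrm2 b := by
    rw [sum_mul]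
    refine sum_le_sum fun i _ => ?_
    have h3 := norm_dot_le (D i) b
    have h4 := pow_le_pow_left₀ (norm_nonneg _) h3 2
    rw [mul_pow, Real.sq_sqrt (nrm2_nonneg _), Real.sq_sqrt (nrm2_nonneg _)] at h4
    exact h4
  simp only [dotProduct] at h1 ⊢
  refine h1.trans ?_
  calc √(nrm2 a) * √(nrm2 (D *ᵥ b))
      ≤ √(nrm2 a) * (√(∑ i, ∑ j, ‖D i j‖ ^ 2) * √(nrm2 b)) := by
        rw [← Real.sqrt_mul (sum_nonneg fun i _ => sum_nonneg fun j _ => sq_nonneg _)]
        exact mul_le_mul_of_nonneg_left (Real.sqrt_le_sqrt h2) (Real.sqrt_nonneg _)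
    _ = _ := by ring

lemma frob_sub_le (g h : Fin n × Fin n → ℝ) :
    √(∑ i, ∑ j, ‖(Am h - Am g) i j‖ ^ 2) ≤ √(2 / n) * √(∑ e, (g e - h e) ^ 2) := by
  rw [← Real.sqrt_mul (show (0 : ℝ) ≤ 2 / n by positivity)]
  refine Real.sqrt_le_sqrt ?_
  have hb : ∀ i j, ‖(Am h - Am g) i j‖ ^ 2 ≤
      1 / (n : ℝ) * (g (i, j) - h (i, j)) ^ 2 + 1 / (n : ℝ) * (g (j, i) - h (j, i)) ^ 2 := by
    intro i j
    rw [Matrix.sub_apply, Am_apply, Am_apply, ← Complex.ofReal_sub, Complex.norm_real,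
      Real.norm_eq_abs, sq_abs]
    have e : (1 / √(n : ℝ)) ^ 2 = 1 / (n : ℝ) := by
      rw [div_pow, Real.sq_sqrt (Nat.cast_nonneg n), one_pow]
    have p1 : 0 ≤ 1 / (n : ℝ) * (g (i, j) - h (i, j)) ^ 2 := by positivity
    have p2 : 0 ≤ 1 / (n : ℝ) * (g (j, i) - h (j, i)) ^ 2 := by positivity
    unfold symJ skJ
    split_ifs
    · rw [← mul_sub, mul_pow, e, sub_sq_comm]; linarith
    · rw [← mul_sub, mul_pow, e, sub_sq_comm]; linarith
    · rw [sub_zero, zero_pow two_ne_zero]; linarith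
  refine (sum_le_sum fun i _ => sum_le_sum fun j _ => hb i j).trans (le_of_eq ?_)
  simp only [sum_add_distrib, ← mul_sum, Fintype.sum_prod_type]
  rw [sum_comm (f := fun i j => (g (j, i) - h (j, i)) ^ 2)]
  ring

/-- Differences of resolvent forms. -/
lemma form_sub_le (hz : 0 < z.im) (g h : Fin n × Fin n → ℝ) (a b : Fin n → ℂ) :
    ‖a ⬝ᵥ ((R h z - R g z) *ᵥ b)‖ ≤ √(2 / n) * √(∑ e, (g e - h e) ^ 2) *
      (√(nrm2 (R h z *ᵥ a)) * √(nrm2 (R g z *ᵥ b))) := by
  rw [R_sub hz g h, ← mulVec_mulVec, ← mulVec_mulVec, dotProduct_mulVec]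
  rw [show a ᵥ* R h z = R h z *ᵥ a by rw [← vecMul_transpose, R_symm]]
  exact (norm_form_le _ _ _).trans
    (mul_le_mul_of_nonneg_right (frob_sub_le g h) (by positivity))

lemma qd_bound (hz : 0 < z.im) (hn : 0 < n) (g : Fin n × Fin n → ℝ) (x : Fin n → Bool) :
    nrm2 (R g z *ᵥ sv x) = n * (-(qd g z x).im / z.im) ∧ 0 ≤ -(qd g z x).im ∧
      -(qd g z x).im ≤ 1 / z.im := by
  have hn' : (0 : ℝ) < n := by exact_mod_cast hn
  have h := sol_im hz g (sv x)
  rw [star_sv] at h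
  have e : (qd g z x).im = -(z.im * nrm2 (R g z *ᵥ sv x)) / n := by
    rw [qd, Complex.div_natCast_im, h]
  have h2 := nrm2_R_le hz g (sv x)
  rw [nrm2_sv] at h2
  have h0 := nrm2_nonneg (R g z *ᵥ sv x)
  refine ⟨by rw [e]; field_simp, by rw [e, neg_div, neg_neg]; positivity, ?_⟩
  rw [e, neg_div, neg_neg, div_le_div_iff₀ hn' hz]
  nlinarith

/-- The local Lipschitz bound of the quadratic form. -/
lemma qd_sub_le (hz : 0 < z.im) (hn : 0 < n) (g h : Fin n × Fin n → ℝ) (x : Fin n → Bool) :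
    ‖qd h z x - qd g z x‖ ≤ √(2 / n) / z.im * √(∑ e, (g e - h e) ^ 2) *
      √(-(qd h z x).im * -(qd g z x).im) := by
  obtain ⟨e1, p1, -⟩ := qd_bound hz hn h x
  obtain ⟨e2, p2, -⟩ := qd_bound hz hn g x
  have hn' : (0 : ℝ) < n := by exact_mod_cast hn
  have hf := form_sub_le hz g h (sv x) (sv x)
  rw [e1, e2, ← Real.sqrt_mul (show 0 ≤ (n : ℝ) * (-(qd h z x).im / z.im) by positivity),
    sub_mulVec, dotProduct_sub] at hf
  have ed : qd h z x - qd g z x =
      (sv x ⬝ᵥ (R h z *ᵥ sv x) - sv x ⬝ᵥ (R g z *ᵥ sv x)) / n := by rw [qd, qd, sub_div]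
  rw [ed, norm_div, Complex.norm_natCast, div_le_iff₀ hn']
  refine hf.trans (le_of_eq ?_)
  rw [show (n : ℝ) * (-(qd h z x).im / z.im) * ((n : ℝ) * (-(qd g z x).im / z.im)) =
    ((n : ℝ) / z.im) ^ 2 * (-(qd h z x).im * -(qd g z x).im) by ring,
    Real.sqrt_mul (sq_nonneg _), Real.sqrt_sq (by positivity)]
  ring

lemma qd_lip (hz : 0 < z.im) (hn : 0 < n) (g h : Fin n × Fin n → ℝ) (x : Fin n → Bool) :
    ‖qd h z x - qd g z x‖ ≤ √(2 / n) / z.im ^ 2 * √(∑ e, (g e - h e) ^ 2) := by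
  refine (qd_sub_le hz hn g h x).trans ?_
  obtain ⟨-, p1, q1⟩ := qd_bound hz hn h x
  obtain ⟨-, p2, q2⟩ := qd_bound hz hn g x
  have h3 : √(-(qd h z x).im * -(qd g z x).im) ≤ 1 / z.im := by
    rw [Real.sqrt_le_iff]
    exact ⟨by positivity, (mul_le_mul q1 q2 p2 (by positivity)).trans (le_of_eq (by ring))⟩
  refine (mul_le_mul_of_nonneg_left h3 (by positivity)).trans (le_of_eq ?_)
  field_simp

lemma tg_lip (hz : 0 < z.im) (g h : Fin n × Fin n → ℝ) :
    ‖tg h z - tg g z‖ ≤ √(2 / n) / √n / z.im ^ 2 * √(∑ e, (g e - h e) ^ 2) := by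
  set D := Am h - Am g with hD
  set S := R g z * R h z with hS
  have e : (R h z - R g z).trace = ∑ p : Fin n × Fin n, D p.1 p.2 * S p.2 p.1 := by
    rw [R_sub hz g h, ← hD, mul_assoc, Matrix.trace_mul_comm, mul_assoc, Fintype.sum_prod_type,
      hS]
    simp [Matrix.trace, Matrix.mul_apply]
  have hS2 : (∑ p : Fin n × Fin n, ‖S p.2 p.1‖ ^ 2) ≤ n / z.im ^ 4 := by
    have hcol : ∀ j, ∑ i, ‖S i j‖ ^ 2 ≤ 1 / z.im ^ 4 := by
      intro j
      have h1 := nrm2_R_le hz g (fun i => R h z i j)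
      have h2 := (col_le hz h j).1
      have e1 : (fun i => S i j) = R g z *ᵥ fun i => R h z i j := by
        funext i; simp [hS, Matrix.mul_apply, mulVec, dotProduct]
      have e2 : ∑ i, ‖S i j‖ ^ 2 = nrm2 (R g z *ᵥ fun i => R h z i j) := by
        rw [← e1]; rfl
      rw [e2, le_div_iff₀ (by positivity)]
      simp only [nrm2] at h1 ⊢
      nlinarith
    rw [Fintype.sum_prod_type]
    refine (sum_le_sum fun j _ => hcol j).trans (le_of_eq ?_)
    simp [div_eq_mul_inv]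
  have h1 : ‖(R h z - R g z).trace‖ ≤
      √(2 / n) * √(∑ e, (g e - h e) ^ 2) * (√n / z.im ^ 2) := by
    rw [e]
    refine (norm_dot_le (fun p : Fin n × Fin n => D p.1 p.2) fun p => S p.2 p.1).trans ?_
    refine mul_le_mul ?_ ?_ (Real.sqrt_nonneg _) (by positivity)
    · refine le_of_eq_of_le (congrArg Real.sqrt ?_) (frob_sub_le g h)
      rw [nrm2, Fintype.sum_prod_type]
    · refine (Real.sqrt_le_sqrt hS2).trans (le_of_eq ?_)
      rw [Real.sqrt_div' _ (by positivity), show z.im ^ 4 = (z.im ^ 2) ^ 2 by ring,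
        Real.sqrt_sq (by positivity)]
  rw [tg, tg, ← sub_div, ← trace_sub, norm_div, Complex.norm_natCast]
  rcases Nat.eq_zero_or_pos n with hn | hn
  · subst hn; simp
  have hn' : (0 : ℝ) < n := by exact_mod_cast hn
  rw [div_le_iff₀ hn']
  refine h1.trans (le_of_eq ?_)
  field_simp
  rw [Real.sq_sqrt hn'.le]
  ring

lemma entry_lip (hz : 0 < z.im) (i j : Fin n) (g h : Fin n × Fin n → ℝ) :
    ‖R h z i j - R g z i j‖ ≤ √(2 / n) / z.im ^ 2 * √(∑ e, (g e - h e) ^ 2) := by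
  have hf := form_sub_le hz g h (Pi.single i 1) (Pi.single j 1)
  have hb : ∀ (g : Fin n × Fin n → ℝ) k, √(nrm2 (R g z *ᵥ Pi.single k 1)) ≤ 1 / z.im :=
    fun g k => by
      rw [Real.sqrt_le_iff]
      refine ⟨by positivity, ?_⟩
      have := nrm2_R_le hz g (Pi.single k 1)
      rw [nrm2_single] at this
      rw [div_pow, one_pow, le_div_iff₀ (by positivity)]
      linarith
  have e : Pi.single i (1 : ℂ) ⬝ᵥ ((R h z - R g z) *ᵥ Pi.single j 1) =
      R h z i j - R g z i j := by simp [single_one_dotProduct]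
  rw [e] at hf
  refine hf.trans ((mul_le_mul_of_nonneg_left (mul_le_mul (hb h i) (hb g j) (Real.sqrt_nonneg _)
    (by positivity)) (by positivity)).trans (le_of_eq ?_))
  field_simp

lemma continuous_entry (hz : 0 < z.im) (i j : Fin n) :
    Continuous fun g : Fin n × Fin n → ℝ => R g z i j := by
  refine continuous_iff_continuousAt.2 fun g => ?_
  have hc : Continuous fun h : Fin n × Fin n → ℝ =>
      √(2 / n) / z.im ^ 2 * √(∑ e, (g e - h e) ^ 2) := by fun_prop
  refine tendsto_iff_norm_sub_tendsto_zero.2 (squeeze_zero (fun _ => norm_nonneg _)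
    (fun h => entry_lip hz i j g h) ?_)
  simpa using hc.tendsto g

lemma Am_update {e : Fin n × Fin n} (he : e ∈ pairs n) (g : Fin n × Fin n → ℝ) (y : ℝ)
    (a b : Fin n) :
    Am (Function.update g e y) a b - Am g a b =
      (((y - g e) / √n : ℝ) : ℂ) *
        ((if a = e.1 ∧ b = e.2 then 1 else 0) + if a = e.2 ∧ b = e.1 then 1 else 0) := by
  obtain ⟨i, j⟩ := e
  have hij : i < j := (mem_filter.1 he).2
  have hu : ∀ c d : Fin n, skJ n 1 (Function.update g (i, j) y) c d - skJ n 1 g c d =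
      if c = i ∧ d = j then (y - g (i, j)) / √n else 0 := by
    intro c d
    by_cases h : c = i ∧ d = j
    · obtain ⟨rfl, rfl⟩ := h
      simp [skJ]; ring
    · rw [if_neg h]
      simp [skJ, Function.update_of_ne (show (c, d) ≠ (i, j) from fun hh => h (Prod.mk.inj hh))]
  have key : symJ (skJ n 1 (Function.update g (i, j) y)) a b - symJ (skJ n 1 g) a b =
      (y - g (i, j)) / √n *
        ((if a = i ∧ b = j then 1 else 0) + if a = j ∧ b = i then 1 else 0) := by
    unfold symJ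
    rcases lt_trichotomy a b with h | h | h
    · have hne : ¬(a = j ∧ b = i) := by rintro ⟨rfl, rfl⟩; exact lt_asymm h hij
      simp only [if_pos h, hu, if_neg hne, add_zero, mul_ite, mul_one, mul_zero]
    · subst h
      have h1 : ¬(a = i ∧ a = j) := fun hh => hij.ne (hh.1.symm.trans hh.2)
      have h2 : ¬(a = j ∧ a = i) := fun hh => hij.ne (hh.2.symm.trans hh.1)
      simp [h1, h2]
    · have hne : ¬(a = i ∧ b = j) := by rintro ⟨rfl, rfl⟩; exact lt_asymm h hij
      simp only [if_pos h, if_neg h.asymm, hu, if_neg hne, zero_add, mul_ite, mul_one, mul_zero,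
        and_comm]
  rw [Am_apply, Am_apply, ← Complex.ofReal_sub, key]
  simp only [Complex.ofReal_mul, Complex.ofReal_add, apply_ite Complex.ofReal, Complex.ofReal_one,
    Complex.ofReal_zero]

/-- The derivative of an entry in one coupling. -/
noncomputable def DR (g : Fin n × Fin n → ℝ) (z : ℂ) (e : Fin n × Fin n) (k l : Fin n) : ℂ :=
  ((1 / √n : ℝ) : ℂ) * (R g z k e.1 * R g z e.2 l + R g z k e.2 * R g z e.1 l)

lemma hasDeriv_entry (hz : 0 < z.im) {e : Fin n × Fin n} (he : e ∈ pairs n)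
    (g : Fin n × Fin n → ℝ) (k l : Fin n) (x : ℝ) :
    HasDerivAt (fun y => R (Function.update g e y) z k l) (DR (Function.update g e x) z e k l)
      x := by
  set g' := Function.update g e x with hg'
  have hge : g' e = x := Function.update_self ..
  have hup : ∀ y, Function.update g' e y = Function.update g e y := fun y => by simp [hg']
  set c : ℝ → ℂ := fun y => ((1 / √n : ℝ) : ℂ) *
    (R (Function.update g e y) z k e.1 * R g' z e.2 l +
      R (Function.update g e y) z k e.2 * R g' z e.1 l) with hc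
  have hrep : ∀ y, R (Function.update g e y) z k l - R g' z k l = ((y - x : ℝ) : ℂ) * c y := by
    intro y
    rw [← Matrix.sub_apply, R_sub hz g' (Function.update g e y)]
    simp only [Matrix.mul_apply, Matrix.sub_apply, ← hup y, Am_update he, sum_mul, mul_sum,
      hge, hc]
    rw [sum_comm]
    simp only [mul_add, mul_ite, mul_one, mul_zero, add_mul, ite_mul, zero_mul, ite_and,
      sum_add_distrib, sum_ite_eq', mem_univ, if_true]
    rw [Finset.sum_comm]
    simp only [sum_ite_eq', mem_univ, if_true]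
    rw [Finset.sum_comm]
    simp only [sum_ite_eq', mem_univ, if_true]
    push_cast
    ring
  have hcc : Continuous c := by
    have h1 := fun a b : Fin n => (continuous_entry hz a b).comp
      (continuous_const.update e continuous_id : Continuous fun y : ℝ => Function.update g e y)
    exact continuous_const.mul (((h1 k e.1).mul continuous_const).add
      ((h1 k e.2).mul continuous_const))
  have hx : c x = DR g' z e k l := rfl
  rw [← hx, hasDerivAt_iff_tendsto_slope]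
  refine Tendsto.congr' ?_ ((hcc.tendsto x).mono_left nhdsWithin_le_nhds)
  filter_upwards [self_mem_nhdsWithin] with y hy
  rw [slope_def_module, ← hg', hrep y, Complex.real_smul, ← mul_assoc, ← Complex.ofReal_mul,
    inv_mul_cancel₀ (sub_ne_zero.2 hy), Complex.ofReal_one, one_mul]

end Vale.Agent.P150.Planted
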